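import Vale.Agent.P368.Defs

/-!
# P368: algebra of product operators and Toffoli gates
-/

namespace Vale.Agent.P368

open Matrix

variable {ι : Type} [DecidableEq ι] [Fintype ι]

theorem tens_mul (a b : ι → M2) : tens a * tens b = tens (fun i => a i * b i) := by
  ext y x
  simp only [Matrix.mul_apply, tens]
  rw [Finset.prod_univ_sum]
  simp only [Fintype.piFinset_univ, Finset.prod_mul_distrib]

theorem tens_one : tens (fun _ : ι => (1 : M2)) = 1 := by
  ext y x
  simp only [tens, Matrix.one_apply]
  by_cases h : y = x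
  · subst h; simp
  · rw [if_neg h]
    obtain ⟨i, hi⟩ := Function.ne_iff.1 h
    exact Finset.prod_eq_zero (Finset.mem_univ i) (by simp [hi])

theorem tens_conj (a : ι → M2) : (tens a)ᴴ = tens (fun i => (a i)ᴴ) := by
  ext y x
  simp [tens, Matrix.conjTranspose_apply]

theorem trace_tens (a : ι → M2) : (tens a).trace = ∏ i, (a i).trace := by
  simp only [Matrix.trace, Matrix.diag, tens]
  rw [Finset.prod_univ_sum]
  simp only [Fintype.piFinset_univ]

/-- `|1⟩⟨1|` -/
def qc : M2 := fun y x => if y = true ∧ x = true then 1 else 0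

/-- `|−⟩⟨−|` -/
noncomputable def qm : M2 := fun y x => if y = x then 1 / 2 else -1 / 2

/-- local projectors of a Toffoli gate -/
noncomputable def Tof.q (g : Tof ι) (i : ι) : M2 :=
  if i = g.tgt then qm else if i ∈ g.ctrl then qc else 1

theorem Tof.q_notMem (g : Tof ι) {i : ι} (h : i ∉ g.supp) : g.q i = 1 := by
  unfold Tof.supp at h
  simp only [Finset.mem_insert, not_or] at h
  simp [Tof.q, h.1, h.2]

theorem Tof.op_eq (g : Tof ι) : g.op = 1 - (2 : ℂ) • tens g.q := by
  ext y x
  simp only [Tof.op, Matrix.sub_apply, Matrix.smul_apply, smul_eq_mul, Matrix.one_apply, tens]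
  rw [← Finset.mul_prod_erase Finset.univ _ (Finset.mem_univ g.tgt)]
  have hq : g.q g.tgt = qm := by simp [Tof.q]
  rw [hq]
  have hoff : ∀ i ∈ Finset.univ.erase g.tgt, g.q i (y i) (x i)
      = if y i = x i ∧ (i ∈ g.ctrl → x i = true) then 1 else 0 := by
    intro i hi
    have hi' : i ≠ g.tgt := (Finset.mem_erase.1 hi).1
    unfold Tof.q
    rw [if_neg hi']
    by_cases hc : i ∈ g.ctrl
    · rw [if_pos hc]
      simp only [qc, hc, true_imp_iff]
      congr 1
      apply propext
      constructor
      · rintro ⟨h1, h2⟩; exact ⟨by rw [h1, h2], h2⟩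
      · rintro ⟨h1, h2⟩; exact ⟨by rw [h1, h2], h2⟩
    · rw [if_neg hc]
      simp [Matrix.one_apply, hc]
  rw [Finset.prod_congr rfl hoff]
  by_cases hc : ∀ i ∈ g.ctrl, x i = true
  · have hact : g.act x = Function.update x g.tgt (!x g.tgt) := by simp only [Tof.act, if_pos hc]
    rw [hact]
    by_cases hy : ∀ i, i ≠ g.tgt → y i = x i
    · have hp : (∏ i ∈ Finset.univ.erase g.tgt,
          (if y i = x i ∧ (i ∈ g.ctrl → x i = true) then (1 : ℂ) else 0)) = 1 := by
        apply Finset.prod_eq_one
        intro i hi
        rw [if_pos ⟨hy i (Finset.mem_erase.1 hi).1, fun h => hc i h⟩]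
      rw [hp]
      by_cases ht : y g.tgt = x g.tgt
      · have hyx : y = x := by
          funext i
          by_cases hi : i = g.tgt
          · rw [hi]; exact ht
          · exact hy i hi
        subst hyx
        have : ¬ y = Function.update y g.tgt (!y g.tgt) := by
          intro h
          have := congrFun h g.tgt
          simp at this
        rw [if_neg this]
        simp [qm]
      · have hyx : y = Function.update x g.tgt (!x g.tgt) := by
          funext i
          by_cases hi : i = g.tgt
          · rw [hi]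
            simp only [Function.update_self]
            cases hh : y g.tgt <;> cases hh' : x g.tgt <;> simp_all
          · rw [Function.update_of_ne hi]; exact hy i hi
        have hyx' : ¬ y = x := fun h => ht (by rw [h])
        rw [if_pos hyx, if_neg hyx']
        simp only [qm, if_neg ht]
        ring
    · push Not at hy
      obtain ⟨i, hi, hne⟩ := hy
      have hp : (∏ i ∈ Finset.univ.erase g.tgt,
          (if y i = x i ∧ (i ∈ g.ctrl → x i = true) then (1 : ℂ) else 0)) = 0 := by
        apply Finset.prod_eq_zero (Finset.mem_erase.2 ⟨hi, Finset.mem_univ i⟩)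
        rw [if_neg (fun h => hne h.1)]
      rw [hp]
      have h1 : ¬ y = x := fun h => hne (by rw [h])
      have h2 : ¬ y = Function.update x g.tgt (!x g.tgt) := fun h => hne (by
        rw [h, Function.update_of_ne hi])
      rw [if_neg h1, if_neg h2]
      simp
  · have hact : g.act x = x := by simp only [Tof.act, if_neg hc]
    rw [hact]
    push Not at hc
    obtain ⟨i, hi, hne⟩ := hc
    have hit : i ≠ g.tgt := fun h => g.notMem (h ▸ hi)
    have hp : (∏ i ∈ Finset.univ.erase g.tgt,
        (if y i = x i ∧ (i ∈ g.ctrl → x i = true) then (1 : ℂ) else 0)) = 0 := by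
      apply Finset.prod_eq_zero (Finset.mem_erase.2 ⟨hit, Finset.mem_univ i⟩)
      rw [if_neg (fun h => hne (h.2 hi))]
    rw [hp]
    simp

/-- the four local words -/
noncomputable def wd (q m : M2) : Fin 4 → M2 := ![m, q * m, m * q, q * m * q]

/-- the four coefficients -/
def cf : Fin 4 → ℂ := ![1, -2, -2, 4]

/-- expansion of the conjugation of a product operator by a gate -/
theorem conj_gate (g : Tof ι) (m : ι → M2) :
    g.op * tens m * g.op = ∑ k : Fin 4, cf k • tens (fun i => wd (g.q i) (m i) k) := by
  rw [Tof.op_eq]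
  have h1 : tens (fun i => wd (g.q i) (m i) 1) = tens g.q * tens m := by
    rw [tens_mul]; rfl
  have h2 : tens (fun i => wd (g.q i) (m i) 2) = tens m * tens g.q := by
    rw [tens_mul]; rfl
  have h3 : tens (fun i => wd (g.q i) (m i) 3) = tens g.q * tens m * tens g.q := by
    rw [tens_mul, tens_mul]; rfl
  have h0 : tens (fun i => wd (g.q i) (m i) 0) = tens m := rfl
  rw [Fin.sum_univ_four, h0, h1, h2, h3]
  simp only [cf, Matrix.cons_val_zero, Matrix.cons_val_one, Matrix.cons_val]
  simp only [sub_mul, mul_sub, one_mul, mul_one, smul_mul_assoc, mul_smul_comm, smul_sub, smul_smul,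
    neg_smul, one_smul]
  rw [mul_assoc]
  norm_num
  abel

theorem qc_herm : qcᴴ = qc := by
  ext y x; cases y <;> cases x <;> simp [qc, Matrix.conjTranspose_apply]

theorem qm_herm : qmᴴ = qm := by
  ext y x; cases y <;> cases x <;> simp [qm, Matrix.conjTranspose_apply]

theorem qc_idem : qc * qc = qc := by
  ext y x; cases y <;> cases x <;> simp [qc, Matrix.mul_apply]

theorem qm_idem : qm * qm = qm := by
  ext y x; cases y <;> cases x <;> simp [qm, Matrix.mul_apply] <;> norm_num

theorem Tof.q_herm (g : Tof ι) (i : ι) : (g.q i)ᴴ = g.q i := by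
  unfold Tof.q
  split_ifs
  · exact qm_herm
  · exact qc_herm
  · simp

theorem Tof.q_idem (g : Tof ι) (i : ι) : g.q i * g.q i = g.q i := by
  unfold Tof.q
  split_ifs
  · exact qm_idem
  · exact qc_idem
  · simp

theorem Tof.op_herm (g : Tof ι) : g.opᴴ = g.op := by
  rw [Tof.op_eq, Matrix.conjTranspose_sub, Matrix.conjTranspose_smul, tens_conj]
  simp [Tof.q_herm]

theorem Tof.op_sq (g : Tof ι) : g.op * g.op = 1 := by
  rw [Tof.op_eq]
  have h : tens g.q * tens g.q = tens g.q := by
    rw [tens_mul]; simp only [Tof.q_idem]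
  simp only [sub_mul, mul_sub, one_mul, mul_one, smul_mul_assoc, mul_smul_comm, smul_sub, smul_smul, h]
  have : (2 : ℂ) * 2 = 4 := by norm_num
  rw [this]
  have h4 : (4 : ℂ) • tens g.q = (2 : ℂ) • tens g.q + (2 : ℂ) • tens g.q := by
    rw [← add_smul]; norm_num
  rw [h4]
  abel

/-- conjugation by a list of gates, the head first -/
noncomputable def conjL : List (Tof ι) → Op ι → Op ι
  | [], X => X
  | g :: L, X => conjL L (g.op * X * g.op)

theorem conjL_eq (L : List (Tof ι)) (X : Op ι) : conjL L X = (layer L)ᴴ * X * layer L := by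
  induction L generalizing X with
  | nil => simp [conjL, layer]
  | cons g L ih =>
    rw [conjL, ih]
    simp only [layer, List.map_cons, List.prod_cons, Matrix.conjTranspose_mul, Tof.op_herm]
    simp only [mul_assoc]

theorem conjL_add (L : List (Tof ι)) (X Y : Op ι) : conjL L (X + Y) = conjL L X + conjL L Y := by
  rw [conjL_eq, conjL_eq, conjL_eq, mul_add, add_mul]

theorem conjL_smul (L : List (Tof ι)) (c : ℂ) (X : Op ι) : conjL L (c • X) = c • conjL L X := by
  rw [conjL_eq, conjL_eq, mul_smul_comm, smul_mul_assoc]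

theorem conjL_sum (L : List (Tof ι)) {κ : Type} (s : Finset κ) (f : κ → Op ι) :
    conjL L (∑ k ∈ s, f k) = ∑ k ∈ s, conjL L (f k) := by
  simp only [conjL_eq, Finset.mul_sum, Finset.sum_mul]

/-- gates away from the support of a product operator cancel -/
theorem conj_gate_away (g : Tof ι) (m : ι → M2) (h : ∀ i ∈ g.supp, m i = 1) :
    g.op * tens m * g.op = tens m := by
  have hc : g.op * tens m = tens m * g.op := by
    rw [Tof.op_eq, sub_mul, mul_sub, one_mul, mul_one, smul_mul_assoc, mul_smul_comm, tens_mul,
      tens_mul]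
    congr 3
    funext i
    by_cases hi : i ∈ g.supp
    · rw [h i hi, mul_one, one_mul]
    · rw [g.q_notMem hi, mul_one, one_mul]
  rw [hc, mul_assoc, Tof.op_sq, mul_one]

theorem conjL_away (L : List (Tof ι)) (m : ι → M2) (h : ∀ g ∈ L, ∀ i ∈ g.supp, m i = 1) :
    conjL L (tens m) = tens m := by
  induction L with
  | nil => rfl
  | cons g L ih =>
    rw [conjL, conj_gate_away g m (h g (by simp)), ih (fun g' hg' => h g' (by simp [hg']))]

end Vale.Agent.P368
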