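import Vale.Agent.P368.Proj

/-!
# P368: the bound for a product operator under one layer of gates
-/

namespace Vale.Agent.P368

open Matrix

variable {ι : Type} [DecidableEq ι] [Fintype ι]

/-- admissible families of one-qubit operators: projectors away from `o`, a contraction at `o` -/
def HH (o : ι) (m : ι → M2) : Prop :=
  Con (m o) ∧ ∀ i, i ≠ o → (m i)ᴴ = m i ∧ m i * m i = m i ∧ Good (m i)

/-- local bound -/
noncomputable def bt (I : Finset ι) (o : ι) (i : ι) : ℝ := if i ∈ I.erase o then 1 / 2 else 1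

omit [Fintype ι] in
theorem bt_prod (I : Finset ι) (o : ι) (s : Finset ι) :
    ∏ i ∈ s, bt I o i = (1 / 2 : ℝ) ^ (s ∩ I.erase o).card := by
  unfold bt
  rw [Finset.prod_ite, Finset.prod_const, Finset.prod_const_one, mul_one]
  congr 2

omit [Fintype ι] in
theorem loc_bound (I : Finset ι) (o : ι) (u : ι → M2) (hu : ∀ i, u i ∈ unitary M2) (m : ι → M2)
    (hm : HH o m) (q : ι → M2) (hq : ∀ i, Good (q i)) (k : Fin 4) (i : ι) :
    ‖(rr I u i * wd (q i) (m i) k).trace‖ ≤ bt I o i := by
  unfold bt rr dd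
  by_cases hi : i ∈ I.erase o
  · rw [if_pos hi]
    rw [Finset.mem_erase] at hi
    rw [if_pos hi.2]
    exact tr_R1_I (hu i) (wd_good (hq i) (hm.2 i hi.1).2.2 k)
  · rw [if_neg hi]
    have hc : Con (wd (q i) (m i) k) := by
      apply wd_con (hq i).con
      by_cases ho : i = o
      · rw [ho]; exact hm.1
      · exact (hm.2 i ho).2.2.con
    split_ifs
    · exact tr_con_I (hu i) hc
    · exact tr_con_A (hu i) hc

theorem cg_nine (I : Finset ι) (o : ι) (u : ι → M2) (hu : ∀ i, u i ∈ unitary M2) (m : ι → M2)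
    (hm : HH o m) (g : Tof ι) :
    ‖cg (rr I u) m g‖ ≤ 9 * (1 / 2 : ℝ) ^ (g.supp ∩ I.erase o).card := by
  unfold cg
  have h : ∀ k : Fin 4, ‖cf k * ∏ i ∈ g.supp, (rr I u i * wd (g.q i) (m i) k).trace‖ ≤
      ‖cf k‖ * (1 / 2 : ℝ) ^ (g.supp ∩ I.erase o).card := by
    intro k
    rw [norm_mul]
    apply mul_le_mul_of_nonneg_left _ (norm_nonneg _)
    rw [norm_prod, ← bt_prod]
    exact Finset.prod_le_prod (fun i _ => norm_nonneg _)
      (fun i _ => loc_bound I o u hu m hm g.q g.q_good k i)
  refine (norm_sum_le _ _).trans ((Finset.sum_le_sum fun k _ => h k).trans ?_)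
  rw [← Finset.sum_mul]
  apply mul_le_mul_of_nonneg_right _ (by positivity)
  rw [Fin.sum_univ_four]
  simp only [cf, Matrix.cons_val_zero, Matrix.cons_val_one, Matrix.cons_val]
  norm_num

theorem num_bound (r : ℝ) (hr0 : 0 < r) (hr1 : r ≤ 1) (hr : r ^ 4 = 1 / 2) (N : ℕ) (c : ℝ)
    (h1 : c ≤ if 0 < N then 1 / 2 else 1) (h2 : c ≤ 9 * (1 / 2 : ℝ) ^ N) : c ≤ r ^ N := by
  rcases Nat.eq_zero_or_pos N with h0 | h0
  · subst h0; simpa using h1
  rw [if_pos h0] at h1
  rcases le_or_gt N 4 with h4 | h4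
  · calc c ≤ 1 / 2 := h1
      _ = r ^ 4 := hr.symm
      _ ≤ r ^ N := pow_le_pow_of_le_one hr0.le hr1 h4
  · have hr2 : 9 / 16 ≤ r := by
      by_contra hlt
      push Not at hlt
      have : r ^ 4 < (9 / 16 : ℝ) ^ 4 := pow_lt_pow_left₀ hlt hr0.le (by norm_num)
      rw [hr] at this
      norm_num at this
    obtain ⟨M, rfl⟩ := Nat.exists_eq_add_of_lt h4
    have h5 : (1 / 2 : ℝ) ^ (4 + M + 1) = r ^ (4 * (4 + M + 1)) := by rw [pow_mul, hr]
    rw [h5] at h2
    refine h2.trans ?_
    have h6 : r ^ (4 * (4 + M + 1)) = r ^ (4 + M + 1) * (r ^ 15 * r ^ (3 * M)) := by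
      rw [← pow_add, ← pow_add]; congr 1; ring
    have h7 : r ^ (3 * M) ≤ 1 := pow_le_one₀ hr0.le hr1
    have h8 : r ^ 15 ≤ 1 / 9 := by
      have h9 : r ^ 15 * r = 1 / 16 := by
        have : r ^ 15 * r = (r ^ 4) ^ 4 := by ring
        rw [this, hr]; norm_num
      have h10 : 0 < r ^ 15 := by positivity
      nlinarith
    have h11 : r ^ 15 * r ^ (3 * M) ≤ 1 / 9 * 1 := by
      apply mul_le_mul h8 h7 (by positivity) (by norm_num)
    rw [h6]
    have h12 : 0 < r ^ (4 + M + 1) := by positivity
    nlinarith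

theorem list_bound (I : Finset ι) (o : ι) (u : ι → M2) (hu : ∀ i, u i ∈ unitary M2) (m : ι → M2)
    (hm : HH o m) (r : ℝ) (hr0 : 0 < r) (hr1 : r ≤ 1) (hr : r ^ 4 = 1 / 2) :
    ∀ L : List (Tof ι), (L.Pairwise fun g h => Disjoint g.supp h.supp) →
      ‖(L.map (cg (rr I u) m)).prod‖ ≤
        (if o ∈ usup L then 9 else 1) * r ^ (usup L ∩ I.erase o).card := by
  intro L
  induction L with
  | nil => intro _; simp [usup]
  | cons g L ih =>
    intro hL
    rw [List.pairwise_cons] at hL
    obtain ⟨hg, hL⟩ := hL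
    have hdis := usup_disj g L hg
    have hcard : (usup (g :: L) ∩ I.erase o).card =
        (g.supp ∩ I.erase o).card + (usup L ∩ I.erase o).card := by
      rw [usup, Finset.union_inter_distrib_right, Finset.card_union_of_disjoint]
      exact Disjoint.mono Finset.inter_subset_left Finset.inter_subset_left hdis
    rw [List.map_cons, List.prod_cons, norm_mul, hcard, pow_add]
    have hih := ih hL
    have hP : 0 ≤ r ^ (g.supp ∩ I.erase o).card := by positivity
    have hQ : 0 ≤ r ^ (usup L ∩ I.erase o).card := by positivity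
    have h2 := cg_nine I o u hu m hm g
    by_cases ho : o ∈ g.supp
    · have hoL : o ∉ usup L := Finset.disjoint_left.1 hdis ho
      rw [if_neg hoL, one_mul] at hih
      have hou : o ∈ usup (g :: L) := by rw [usup]; exact Finset.mem_union_left _ ho
      rw [if_pos hou]
      have h3 : ‖cg (rr I u) m g‖ ≤ 9 * r ^ (g.supp ∩ I.erase o).card := by
        refine h2.trans ?_
        apply mul_le_mul_of_nonneg_left _ (by norm_num)
        apply pow_le_pow_left₀ (by norm_num)
        nlinarith [pow_le_pow_of_le_one hr0.le hr1 (show 1 ≤ 4 by norm_num)]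
      calc _ ≤ (9 * r ^ (g.supp ∩ I.erase o).card) * r ^ (usup L ∩ I.erase o).card :=
            mul_le_mul h3 hih (norm_nonneg _) (by positivity)
        _ = _ := by ring
    · have h1 := cg_bound I u hu m g (fun i hi => by
        have hne : i ≠ o := fun h => ho (h ▸ hi)
        exact ⟨(hm.2 i hne).1, (hm.2 i hne).2.1⟩)
      have hinter : g.supp ∩ I = g.supp ∩ I.erase o := by
        ext i
        simp only [Finset.mem_inter, Finset.mem_erase]
        constructor
        · rintro ⟨h, h'⟩; exact ⟨h, fun e => ho (e ▸ h), h'⟩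
        · rintro ⟨h, _, h'⟩; exact ⟨h, h'⟩
      rw [hinter] at h1
      have h3 : ‖cg (rr I u) m g‖ ≤ r ^ (g.supp ∩ I.erase o).card := by
        apply num_bound r hr0 hr1 hr _ _ _ h2
        simpa only [Finset.card_pos] using h1
      have hou : (o ∈ usup (g :: L)) ↔ o ∈ usup L := by
        rw [usup, Finset.mem_union]
        exact ⟨fun h => h.resolve_left ho, Or.inr⟩
      simp only [hou]
      calc _ ≤ r ^ (g.supp ∩ I.erase o).card *
            ((if o ∈ usup L then 9 else 1) * r ^ (usup L ∩ I.erase o).card) :=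
            mul_le_mul h3 hih (norm_nonneg _) hP
        _ = _ := by ring

theorem layer_bound (I : Finset ι) (o : ι) (u : ι → M2) (hu : ∀ i, u i ∈ unitary M2) (m : ι → M2)
    (hm : HH o m) (r : ℝ) (hr0 : 0 < r) (hr1 : r ≤ 1) (hr : r ^ 4 = 1 / 2) (L : List (Tof ι))
    (hL : L.Pairwise fun g h => Disjoint g.supp h.supp) :
    ‖(tens (rr I u) * conjL L (tens m)).trace‖ ≤ 9 * r ^ (I.erase o).card := by
  rw [trace_conjL _ _ _ hL, norm_mul]
  have h1 := list_bound I o u hu m hm r hr0 hr1 hr L hL
  have h2 : ‖∏ i ∈ (usup L)ᶜ, (rr I u i * m i).trace‖ ≤ r ^ ((usup L)ᶜ ∩ I.erase o).card := by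
    rw [norm_prod]
    calc _ ≤ ∏ i ∈ (usup L)ᶜ, bt I o i :=
          Finset.prod_le_prod (fun i _ => norm_nonneg _) (fun i _ =>
            loc_bound I o u hu m hm (fun _ => 1) (fun _ => Or.inl rfl) 0 i)
      _ = (1 / 2 : ℝ) ^ ((usup L)ᶜ ∩ I.erase o).card := bt_prod _ _ _
      _ ≤ _ := by
          apply pow_le_pow_left₀ (by norm_num)
          nlinarith [pow_le_pow_of_le_one hr0.le hr1 (show 1 ≤ 4 by norm_num)]
  have hcard : (usup L ∩ I.erase o).card + ((usup L)ᶜ ∩ I.erase o).card = (I.erase o).card := by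
    rw [← Finset.card_union_of_disjoint, ← Finset.union_inter_distrib_right,
      Finset.union_compl, Finset.univ_inter]
    exact Disjoint.mono Finset.inter_subset_left Finset.inter_subset_left disjoint_compl_right
  have h3 : ‖(L.map (cg (rr I u) m)).prod‖ ≤ 9 * r ^ (usup L ∩ I.erase o).card := by
    refine h1.trans ?_
    apply mul_le_mul_of_nonneg_right _ (by positivity)
    split_ifs <;> norm_num
  calc _ ≤ (9 * r ^ (usup L ∩ I.erase o).card) * r ^ ((usup L)ᶜ ∩ I.erase o).card :=
        mul_le_mul h3 h2 (norm_nonneg _) (by positivity)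
    _ = 9 * r ^ (I.erase o).card := by rw [mul_assoc, ← pow_add, hcard]

/-- conjugation of a one-qubit observable by the last layer -/
theorem last_layer (o : ι) : ∀ (L : List (Tof ι)),
    (L.Pairwise fun g h => Disjoint g.supp h.supp) → ∀ A : M2, Con A →
    ∃ (c : Fin 4 → ℂ) (m : Fin 4 → ι → M2), ∑ k, ‖c k‖ ≤ 9 ∧ (∀ k, HH o (m k)) ∧
      conjL L (tens (Function.update (fun _ => (1 : M2)) o A)) = ∑ k, c k • tens (m k) := by
  intro L
  induction L with
  | nil =>
    intro _ A hA
    refine ⟨![1, 0, 0, 0], fun _ => Function.update (fun _ => (1 : M2)) o A, ?_, ?_, ?_⟩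
    · rw [Fin.sum_univ_four]; simp
    · intro k
      refine ⟨by simpa using hA, fun i hi => ?_⟩
      dsimp only
      rw [Function.update_of_ne hi]
      exact ⟨by simp, by simp, Or.inl rfl⟩
    · rw [Fin.sum_univ_four]; simp [conjL]
  | cons g L ih =>
    intro hL A hA
    rw [List.pairwise_cons] at hL
    obtain ⟨hg, hL⟩ := hL
    by_cases ho : o ∈ g.supp
    · refine ⟨cf, fun k i => wd (g.q i) (Function.update (fun _ => (1 : M2)) o A i) k, ?_, ?_, ?_⟩
      · rw [Fin.sum_univ_four]
        simp only [cf, Matrix.cons_val_zero, Matrix.cons_val_one, Matrix.cons_val]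
        norm_num
      · intro k
        refine ⟨?_, fun i hi => ?_⟩
        · dsimp only
          rw [Function.update_self]
          exact wd_con (g.q_good o).con hA k
        · simp only [Function.update_of_ne hi]
          fin_cases k
          · exact ⟨by simp [wd], by simp [wd], Or.inl rfl⟩
          · refine ⟨?_, ?_, ?_⟩
            · simp [wd, g.q_herm]
            · simp [wd, g.q_idem]
            · simpa [wd] using g.q_good i
          · refine ⟨?_, ?_, ?_⟩
            · simp [wd, g.q_herm]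
            · simp [wd, g.q_idem]
            · simpa [wd] using g.q_good i
          · refine ⟨?_, ?_, ?_⟩
            · simp [wd, g.q_herm, g.q_idem]
            · simp [wd, g.q_idem]
            · simpa [wd, g.q_idem] using g.q_good i
      · rw [conjL, conj_gate, conjL_sum]
        apply Finset.sum_congr rfl
        intro k _
        rw [conjL_smul, conjL_away]
        intro h hh i hi
        have hi' : i ∉ g.supp := fun h' => Finset.disjoint_left.1 (hg h hh) h' hi
        have hio : i ≠ o := fun e => hi' (e ▸ ho)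
        rw [Function.update_of_ne hio, g.q_notMem hi']
        fin_cases k <;> simp [wd]
    · obtain ⟨c, m, h1, h2, h3⟩ := ih hL A hA
      refine ⟨c, m, h1, h2, ?_⟩
      rw [conjL, conj_gate_away, h3]
      intro i hi
      have hio : i ≠ o := fun e => ho (e ▸ hi)
      rw [Function.update_of_ne hio]

end Vale.Agent.P368
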