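import Vale.Agent.P368.GB

/-!
# P368: the bound for rank-one families under one layer of gates
-/

namespace Vale.Agent.P368

open Matrix

variable {ι : Type} [DecidableEq ι] [Fintype ι]

/-- admissible families: identity or rank-one away from `o`, a contraction at `o` -/
def HG (o : ι) (m : ι → M2) : Prop := Con (m o) ∧ ∀ i, i ≠ o → Good (m i)

omit [Fintype ι] in
theorem loc_bound' (I : Finset ι) (o : ι) (u : ι → M2) (hu : ∀ i, u i ∈ unitary M2) (m : ι → M2)
    (hm : HG o m) (q : ι → M2) (hq : ∀ i, Good (q i)) (k : Fin 4) (i : ι) :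
    ‖(rr I u i * wd (q i) (m i) k).trace‖ ≤ bt I o i := by
  unfold bt rr dd
  by_cases hi : i ∈ I.erase o
  · rw [if_pos hi]
    rw [Finset.mem_erase] at hi
    rw [if_pos hi.2]
    exact tr_R1_I (hu i) (wd_good (hq i) (hm.2 i hi.1) k)
  · rw [if_neg hi]
    have hc : Con (wd (q i) (m i) k) := by
      apply wd_con (hq i).con
      by_cases ho : i = o
      · rw [ho]; exact hm.1
      · exact (hm.2 i ho).con
    split_ifs
    · exact tr_con_I (hu i) hc
    · exact tr_con_A (hu i) hc

theorem cg_nine' (I : Finset ι) (o : ι) (u : ι → M2) (hu : ∀ i, u i ∈ unitary M2) (m : ι → M2)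
    (hm : HG o m) (g : Tof ι) :
    ‖cg (rr I u) m g‖ ≤ 9 * (1 / 2 : ℝ) ^ (g.supp ∩ I.erase o).card := by
  unfold cg
  have h : ∀ k : Fin 4, ‖cf k * ∏ i ∈ g.supp, (rr I u i * wd (g.q i) (m i) k).trace‖ ≤
      ‖cf k‖ * (1 / 2 : ℝ) ^ (g.supp ∩ I.erase o).card := by
    intro k
    rw [norm_mul]
    apply mul_le_mul_of_nonneg_left _ (norm_nonneg _)
    rw [norm_prod, ← bt_prod]
    exact Finset.prod_le_prod (fun i _ => norm_nonneg _)
      (fun i _ => loc_bound' I o u hu m hm g.q g.q_good k i)
  refine (norm_sum_le _ _).trans ((Finset.sum_le_sum fun k _ => h k).trans ?_)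
  rw [← Finset.sum_mul]
  apply mul_le_mul_of_nonneg_right _ (by positivity)
  rw [Fin.sum_univ_four]
  simp only [cf, Matrix.cons_val_zero, Matrix.cons_val_one, Matrix.cons_val]
  norm_num

theorem list_bound' (I : Finset ι) (o : ι) (u : ι → M2) (hu : ∀ i, u i ∈ unitary M2) (m : ι → M2)
    (hm : HG o m) (r : ℝ) (hr0 : 0 < r) (hr1 : r ≤ 1) (hr : r ^ 4 = 1 / 2) :
    ∀ L : List (Tof ι), (L.Pairwise fun g h => Disjoint g.supp h.supp) →
      ‖(L.map (cg (rr I u) m)).prod‖ ≤
        (if o ∈ usup L then 9 else 1) * r ^ (usup L ∩ I.erase o).card := by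
  intro L
  induction L with
  | nil => intro _; simp [usup]
  | cons g L ih =>
    intro hL
    rw [List.pairwise_cons] at hL
    obtain ⟨hg, hL⟩ := hL
    have hdis := usup_disj g L hg
    have hcard : (usup (g :: L) ∩ I.erase o).card =
        (g.supp ∩ I.erase o).card + (usup L ∩ I.erase o).card := by
      rw [usup, Finset.union_inter_distrib_right, Finset.card_union_of_disjoint]
      exact Disjoint.mono Finset.inter_subset_left Finset.inter_subset_left hdis
    rw [List.map_cons, List.prod_cons, norm_mul, hcard, pow_add]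
    have hih := ih hL
    have hP : 0 ≤ r ^ (g.supp ∩ I.erase o).card := by positivity
    have hQ : 0 ≤ r ^ (usup L ∩ I.erase o).card := by positivity
    have h2 := cg_nine' I o u hu m hm g
    by_cases ho : o ∈ g.supp
    · have hoL : o ∉ usup L := Finset.disjoint_left.1 hdis ho
      rw [if_neg hoL, one_mul] at hih
      have hou : o ∈ usup (g :: L) := by rw [usup]; exact Finset.mem_union_left _ ho
      rw [if_pos hou]
      have h3 : ‖cg (rr I u) m g‖ ≤ 9 * r ^ (g.supp ∩ I.erase o).card := by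
        refine h2.trans ?_
        apply mul_le_mul_of_nonneg_left _ (by norm_num)
        apply pow_le_pow_left₀ (by norm_num)
        nlinarith [pow_le_pow_of_le_one hr0.le hr1 (show 1 ≤ 4 by norm_num)]
      calc _ ≤ (9 * r ^ (g.supp ∩ I.erase o).card) * r ^ (usup L ∩ I.erase o).card :=
            mul_le_mul h3 hih (norm_nonneg _) (by positivity)
        _ = _ := by ring
    · have h1 := cg_bound' I u hu m g (fun i hi => by
        have hne : i ≠ o := fun h => ho (h ▸ hi)
        exact hm.2 i hne)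
      have hinter : g.supp ∩ I = g.supp ∩ I.erase o := by
        ext i
        simp only [Finset.mem_inter, Finset.mem_erase]
        constructor
        · rintro ⟨h, h'⟩; exact ⟨h, fun e => ho (e ▸ h), h'⟩
        · rintro ⟨h, _, h'⟩; exact ⟨h, h'⟩
      rw [hinter] at h1
      have h3 : ‖cg (rr I u) m g‖ ≤ r ^ (g.supp ∩ I.erase o).card := by
        apply num_bound r hr0 hr1 hr _ _ _ h2
        simpa only [Finset.card_pos] using h1
      have hou : (o ∈ usup (g :: L)) ↔ o ∈ usup L := by
        rw [usup, Finset.mem_union]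
        exact ⟨fun h => h.resolve_left ho, Or.inr⟩
      simp only [hou]
      calc _ ≤ r ^ (g.supp ∩ I.erase o).card *
            ((if o ∈ usup L then 9 else 1) * r ^ (usup L ∩ I.erase o).card) :=
            mul_le_mul h3 hih (norm_nonneg _) hP
        _ = _ := by ring

theorem layer_bound' (I : Finset ι) (o : ι) (u : ι → M2) (hu : ∀ i, u i ∈ unitary M2) (m : ι → M2)
    (hm : HG o m) (r : ℝ) (hr0 : 0 < r) (hr1 : r ≤ 1) (hr : r ^ 4 = 1 / 2) (L : List (Tof ι))
    (hL : L.Pairwise fun g h => Disjoint g.supp h.supp) :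
    ‖(tens (rr I u) * conjL L (tens m)).trace‖ ≤ 9 * r ^ (I.erase o).card := by
  rw [trace_conjL _ _ _ hL, norm_mul]
  have h1 := list_bound' I o u hu m hm r hr0 hr1 hr L hL
  have h2 : ‖∏ i ∈ (usup L)ᶜ, (rr I u i * m i).trace‖ ≤ r ^ ((usup L)ᶜ ∩ I.erase o).card := by
    rw [norm_prod]
    calc _ ≤ ∏ i ∈ (usup L)ᶜ, bt I o i :=
          Finset.prod_le_prod (fun i _ => norm_nonneg _) (fun i _ =>
            loc_bound' I o u hu m hm (fun _ => 1) (fun _ => Or.inl rfl) 0 i)
      _ = (1 / 2 : ℝ) ^ ((usup L)ᶜ ∩ I.erase o).card := bt_prod _ _ _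
      _ ≤ _ := by
          apply pow_le_pow_left₀ (by norm_num)
          nlinarith [pow_le_pow_of_le_one hr0.le hr1 (show 1 ≤ 4 by norm_num)]
  have hcard : (usup L ∩ I.erase o).card + ((usup L)ᶜ ∩ I.erase o).card = (I.erase o).card := by
    rw [← Finset.card_union_of_disjoint, ← Finset.union_inter_distrib_right,
      Finset.union_compl, Finset.univ_inter]
    exact Disjoint.mono Finset.inter_subset_left Finset.inter_subset_left disjoint_compl_right
  have h3 : ‖(L.map (cg (rr I u) m)).prod‖ ≤ 9 * r ^ (usup L ∩ I.erase o).card := by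
    refine h1.trans ?_
    apply mul_le_mul_of_nonneg_right _ (by positivity)
    split_ifs <;> norm_num
  calc _ ≤ (9 * r ^ (usup L ∩ I.erase o).card) * r ^ ((usup L)ᶜ ∩ I.erase o).card :=
        mul_le_mul h3 h2 (norm_nonneg _) (by positivity)
    _ = 9 * r ^ (I.erase o).card := by rw [mul_assoc, ← pow_add, hcard]


end Vale.Agent.P368
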