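import Vale.Agent.P368.Bd2

/-!
# P368: light cones, two unbounded layers and bounded arity afterwards
-/

namespace Vale.Agent.P368

open Matrix

variable {ι : Type} [DecidableEq ι] [Fintype ι]

/-- combinations of admissible families supported in `S`, coefficient sum at most `K` -/
def Cmb (o : ι) (S : Finset ι) (K : ℝ) (X : Op ι) : Prop :=
  ∃ (J : Type) (_ : Fintype J) (c : J → ℂ) (m : J → ι → M2), ∑ j, ‖c j‖ ≤ K ∧
    (∀ j, HG o (m j)) ∧ (∀ j, ∀ i, i ∉ S → m j i = 1) ∧ X = ∑ j, c j • tens (m j)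

theorem Cmb.init (o : ι) (A : M2) (hA : Con A) :
    Cmb o {o} 1 (tens (Function.update (fun _ => (1 : M2)) o A)) := by
  refine ⟨Unit, inferInstance, fun _ => 1, fun _ => Function.update (fun _ => (1 : M2)) o A,
    by simp, ?_, ?_, by simp⟩
  · intro _
    refine ⟨by dsimp only; rw [Function.update_self]; exact hA, fun i hi => ?_⟩
    dsimp only
    rw [Function.update_of_ne hi]; exact Or.inl rfl
  · intro _ i hi
    rw [Finset.mem_singleton] at hi
    dsimp only
    rw [Function.update_of_ne hi]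

theorem HG.conj {o : ι} {m : ι → M2} (hm : HG o m) (u : ι → M2) (hu : ∀ i, u i ∈ unitary M2) :
    HG o (fun i => (u i)ᴴ * m i * u i) :=
  ⟨((con_unitary (unitary_conj (hu o))).mul hm.1).mul (con_unitary (hu o)),
    fun i hi => (hm.2 i hi).conj (hu i)⟩

theorem Cmb.conjT {o : ι} {S : Finset ι} {K : ℝ} {X : Op ι} (h : Cmb o S K X) (u : ι → M2)
    (hu : ∀ i, u i ∈ unitary M2) : Cmb o S K ((tens u)ᴴ * X * tens u) := by
  obtain ⟨J, hJ, c, m, h1, h2, h3, rfl⟩ := h
  refine ⟨J, hJ, c, fun j i => (u i)ᴴ * m j i * u i, h1, fun j => (h2 j).conj u hu, ?_, ?_⟩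
  · intro j i hi
    dsimp only
    rw [h3 j i hi, mul_one]
    exact (Unitary.mem_iff.1 (hu i)).1
  · rw [Finset.mul_sum, Finset.sum_mul]
    apply Finset.sum_congr rfl
    intro j _
    rw [mul_smul_comm, smul_mul_assoc, tens_conj, tens_mul, tens_mul]

theorem Cmb.gate_away {o : ι} {S : Finset ι} {K : ℝ} {X : Op ι} (h : Cmb o S K X) (g : Tof ι)
    (hd : Disjoint g.supp S) : g.op * X * g.op = X := by
  obtain ⟨J, hJ, c, m, h1, h2, h3, rfl⟩ := h
  rw [Finset.mul_sum, Finset.sum_mul]
  apply Finset.sum_congr rfl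
  intro j _
  rw [mul_smul_comm, smul_mul_assoc, conj_gate_away]
  intro i hi
  exact h3 j i (Finset.disjoint_left.1 hd hi)

theorem Cmb.gate {o : ι} {S : Finset ι} {K : ℝ} {X : Op ι} (h : Cmb o S K X) (g : Tof ι) :
    Cmb o (S ∪ g.supp) (9 * K) (g.op * X * g.op) := by
  obtain ⟨J, hJ, c, m, h1, h2, h3, rfl⟩ := h
  refine ⟨J × Fin 4, inferInstance, fun p => c p.1 * cf p.2,
    fun p i => wd (g.q i) (m p.1 i) p.2, ?_, ?_, ?_, ?_⟩
  · rw [Fintype.sum_prod_type]
    simp only [norm_mul, ← Finset.mul_sum]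
    rw [← Finset.sum_mul]
    have : ∑ k : Fin 4, ‖cf k‖ = 9 := by
      rw [Fin.sum_univ_four]
      simp only [cf, Matrix.cons_val_zero, Matrix.cons_val_one, Matrix.cons_val]
      norm_num
    rw [this]; linarith
  · intro p
    exact ⟨wd_con (g.q_good o).con (h2 p.1).1 p.2,
      fun i hi => wd_good (g.q_good i) ((h2 p.1).2 i hi) p.2⟩
  · intro p i hi
    rw [Finset.mem_union, not_or] at hi
    obtain ⟨j, k⟩ := p
    simp only [h3 j i hi.1, g.q_notMem hi.2]
    fin_cases k <;> simp [wd]
  · rw [Fintype.sum_prod_type, Finset.mul_sum, Finset.sum_mul]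
    apply Finset.sum_congr rfl
    intro j _
    rw [mul_smul_comm, smul_mul_assoc, conj_gate, Finset.smul_sum]
    simp only [smul_smul]

/-- gates meeting `S` -/
def touch (S : Finset ι) (L : List (Tof ι)) : List (Tof ι) :=
  L.filter fun g => decide (¬ Disjoint g.supp S)

theorem Cmb.layer {o : ι} : ∀ (L : List (Tof ι)), (L.Pairwise fun g h => Disjoint g.supp h.supp) →
    ∀ {S : Finset ι} {K : ℝ} {X : Op ι}, Cmb o S K X →
    Cmb o (S ∪ usup (touch S L)) (9 ^ (touch S L).length * K) (conjL L X) := by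
  intro L
  induction L with
  | nil => intro _ S K X h; simpa [touch, usup, conjL] using h
  | cons g L ih =>
    intro hL S K X h
    rw [List.pairwise_cons] at hL
    obtain ⟨hg, hL⟩ := hL
    rw [conjL]
    by_cases hd : Disjoint g.supp S
    · have ht : touch S (g :: L) = touch S L := by
        unfold touch
        rw [List.filter_cons_of_neg]
        simpa using hd
      rw [ht, h.gate_away g hd]
      exact ih hL h
    · have ht : touch S (g :: L) = g :: touch S L := by
        unfold touch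
        rw [List.filter_cons_of_pos]
        simpa using hd
      have ht2 : touch (S ∪ g.supp) L = touch S L := by
        unfold touch
        apply List.filter_congr
        intro h' hh
        have hdis : Disjoint h'.supp g.supp := (hg h' hh).symm
        congr 1
        apply propext
        rw [Finset.disjoint_union_right]
        constructor
        · intro h1 h2; exact h1 ⟨h2, hdis⟩
        · intro h1 h2; exact h1 h2.1
      have h3 := ih hL (h.gate g)
      rw [ht2] at h3
      rw [ht, usup, ← Finset.union_assoc, List.length_cons, pow_succ, mul_assoc]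
      exact h3

omit [Fintype ι] in
theorem touch_length (S : Finset ι) : ∀ (M : List (Tof ι)),
    (M.Pairwise fun g h => Disjoint g.supp h.supp) → (∀ g ∈ M, ¬ Disjoint g.supp S) →
    M.length ≤ (S ∩ usup M).card := by
  intro M
  induction M with
  | nil => intro _ _; simp
  | cons g M ih =>
    intro hM hS
    rw [List.pairwise_cons] at hM
    have h1 := ih hM.2 (fun h hh => hS h (List.mem_cons_of_mem _ hh))
    have h2 : Disjoint (S ∩ g.supp) (S ∩ usup M) :=
      Disjoint.mono Finset.inter_subset_right Finset.inter_subset_right (usup_disj g M hM.1)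
    rw [usup, Finset.inter_union_distrib_left, Finset.card_union_of_disjoint h2, List.length_cons]
    have h3 : 0 < (S ∩ g.supp).card := by
      rw [Finset.card_pos]
      have := hS g List.mem_cons_self
      rw [Finset.not_disjoint_iff] at this
      obtain ⟨a, ha, hb⟩ := this
      exact ⟨a, Finset.mem_inter.2 ⟨hb, ha⟩⟩
    omega

omit [Fintype ι] in
theorem touch_sdiff (S : Finset ι) (k : ℕ) : ∀ (M : List (Tof ι)), (∀ g ∈ M, ¬ Disjoint g.supp S) →
    (∀ g ∈ M, g.supp.card ≤ k) → (usup M \ S).card ≤ (k - 1) * M.length := by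
  intro M
  induction M with
  | nil => intro _ _; simp [usup]
  | cons g M ih =>
    intro hS hk
    have h1 := ih (fun h hh => hS h (List.mem_cons_of_mem _ hh))
      (fun h hh => hk h (List.mem_cons_of_mem _ hh))
    have h2 : (g.supp \ S).card ≤ k - 1 := by
      have h3 : (g.supp \ S) ⊂ g.supp := by
        refine Finset.ssubset_iff_subset_ne.2 ⟨Finset.sdiff_subset, fun he => ?_⟩
        apply hS g List.mem_cons_self
        rw [← he]
        exact Finset.sdiff_disjoint
      have h4 := Finset.card_lt_card h3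
      have h5 := hk g List.mem_cons_self
      omega
    rw [usup, Finset.union_sdiff_distrib, List.length_cons, Nat.mul_succ]
    have h6 := Finset.card_union_le (g.supp \ S) (usup M \ S)
    omega

theorem touch_facts {S : Finset ι} {L : List (Tof ι)}
    (hL : L.Pairwise fun g h => Disjoint g.supp h.supp) :
    (touch S L).length ≤ S.card := by
  have h1 : (touch S L).Pairwise fun g h => Disjoint g.supp h.supp := hL.filter _
  have h2 : ∀ g ∈ touch S L, ¬ Disjoint g.supp S := by
    intro g hg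
    have := (List.mem_filter.1 hg).2
    simpa using this
  exact (touch_length S _ h1 h2).trans (Finset.card_le_card Finset.inter_subset_left)

theorem touch_card {S : Finset ι} {L : List (Tof ι)} {k : ℕ} (hk : 1 ≤ k)
    (hL : L.Pairwise fun g h => Disjoint g.supp h.supp) (hc : ∀ g ∈ L, g.supp.card ≤ k) :
    (S ∪ usup (touch S L)).card ≤ k * S.card := by
  have h0 := touch_facts (S := S) hL
  have h2 : ∀ g ∈ touch S L, ¬ Disjoint g.supp S := by
    intro g hg
    have := (List.mem_filter.1 hg).2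
    simpa using this
  have h3 := touch_sdiff S k (touch S L) h2 (fun g hg => hc g (List.mem_filter.1 hg).1)
  rw [← Finset.union_sdiff_self_eq_union]
  have h4 := Finset.card_union_le S (usup (touch S L) \ S)
  obtain ⟨k', rfl⟩ := Nat.exists_eq_add_of_le hk
  have h5 : (1 + k' - 1) * (touch S L).length ≤ k' * S.card := by
    rw [Nat.add_sub_cancel_left]
    exact Nat.mul_le_mul_left _ h0
  have h6 : (1 + k') * S.card = S.card + k' * S.card := by ring
  omega

/-- normal form: two arbitrary entangling layers, then `j` layers of arity at most `k` -/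
def NK (k : ℕ) : ℕ → Op ι → Prop
  | 0, X => NF 2 X
  | (j + 1), X => ∃ (u : ι → M2) (L : List (Tof ι)) (Y : Op ι), (∀ i, u i ∈ unitary M2) ∧
      (L.Pairwise fun g h => Disjoint g.supp h.supp) ∧ (∀ g ∈ L, g.supp.card ≤ k) ∧ NK k j Y ∧
      X = tens u * Vale.Agent.P368.layer L * Y

theorem NK.tens_left {k j : ℕ} {X : Op ι} (h : NK k j X) (v : ι → M2)
    (hv : ∀ i, v i ∈ unitary M2) : NK k j (tens v * X) := by
  cases j with
  | zero => exact NF.tens_left h v hv
  | succ j =>
    obtain ⟨u, L, Y, hu, hL, hc, hY, rfl⟩ := h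
    refine ⟨fun i => v i * u i, L, Y, tens_mul_unitary hv hu, hL, hc, hY, ?_⟩
    rw [← tens_mul]; simp only [mul_assoc]

theorem NK.succ {k j : ℕ} {X : Op ι} (h : NK k j X) : NK k (j + 1) X :=
  ⟨fun _ => 1, [], X, fun _ => one_mem _, List.Pairwise.nil, by simp, h, by
    rw [tens_one]; simp [Vale.Agent.P368.layer]⟩

theorem NK.mono {k j l : ℕ} (hjl : j ≤ l) {X : Op ι} (h : NK k j X) : NK k l X := by
  induction hjl with
  | refl => exact h
  | step _ ih => exact ih.succ

theorem circOp_nk (k : ℕ) (C₁ : List (List (Gate ι))) (hd : entDepth C₁ ≤ 2) :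
    ∀ (C₂ : List (List (Gate ι))), IsCircuit (C₂ ++ C₁) →
    (∀ l ∈ C₂, ∀ g, Gate.tof g ∈ l → g.supp.card ≤ k) →
    NK k (entDepth C₂) (circOp (C₂ ++ C₁)) := by
  intro C₂
  induction C₂ with
  | nil => intro hC _; exact (circOp_nf C₁ hC).mono hd
  | cons l C₂ ih =>
    intro hC hk
    have ih' := ih (fun l' hl' => hC l' (List.mem_cons_of_mem _ hl'))
      (fun l' hl' => hk l' (List.mem_cons_of_mem _ hl'))
    obtain ⟨L, u, hL, hu, hmem, heq⟩ := layerOp_nf l (hC l List.mem_cons_self)
    have hop : circOp ((l :: C₂) ++ C₁) = layerOp l * circOp (C₂ ++ C₁) := by simp [circOp]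
    rw [hop, heq, mul_assoc]
    have hT := ih'.tens_left u hu
    unfold entDepth at *
    rw [List.countP_cons]
    by_cases hany : l.any Gate.multi = true
    · rw [if_pos hany]
      refine ⟨fun _ => 1, L, tens u * circOp (C₂ ++ C₁), fun _ => one_mem _, hL, ?_, hT, ?_⟩
      · intro g hg; exact hk l List.mem_cons_self g (hmem g hg)
      · rw [tens_one, one_mul]
    · rw [if_neg hany, add_zero]
      have hLnil : L = [] := by
        rcases L with _ | ⟨g, L⟩
        · rfl
        · exfalso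
          apply hany
          rw [List.any_eq_true]
          exact ⟨_, hmem g List.mem_cons_self, rfl⟩
      subst hLnil
      simpa [Vale.Agent.P368.layer] using hT

theorem cmb_last (I : Finset ι) (o : ι) (r : ℝ) (hr0 : 0 < r) (hr1 : r ≤ 1)
    (hr : r ^ 4 = 1 / 2) (u₀ : ι → M2) (hu₀ : ∀ i, u₀ i ∈ unitary M2) (L : List (Tof ι))
    (hL : L.Pairwise fun g h => Disjoint g.supp h.supp) {S : Finset ι} {K : ℝ} {O : Op ι}
    (hO : Cmb o S K O) :
    ‖∑ s : ι → Bool, (∏ i, dd I i (s i)) *
      ((layer L * tens u₀)ᴴ * O * (layer L * tens u₀)) s s‖ ≤ K * (9 * r ^ (I.erase o).card) := by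
  obtain ⟨J, hJ, c, m, h1, h2, h3, rfl⟩ := hO
  have hU : (layer L * tens u₀)ᴴ * (∑ j, c j • tens (m j)) * (layer L * tens u₀) =
      (tens u₀)ᴴ * (conjL L (∑ j, c j • tens (m j))) * tens u₀ := by
    rw [conjL_eq, Matrix.conjTranspose_mul]
    simp only [mul_assoc]
  rw [hU, ← trace_weighted, ← tens_rr]
  have hrr : (fun i => u₀ i * Matrix.diagonal (dd I i) * (u₀ i)ᴴ) = rr I u₀ := rfl
  rw [hrr, conjL_sum, Finset.mul_sum, Matrix.trace_sum]
  refine (norm_sum_le _ _).trans ?_
  have hk : ∀ j, ‖(tens (rr I u₀) * conjL L (c j • tens (m j))).trace‖ ≤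
      ‖c j‖ * (9 * r ^ (I.erase o).card) := by
    intro j
    rw [conjL_smul, mul_smul_comm, Matrix.trace_smul, norm_smul]
    apply mul_le_mul_of_nonneg_left _ (norm_nonneg _)
    exact layer_bound' I o u₀ hu₀ _ (h2 j) r hr0 hr1 hr L hL
  refine (Finset.sum_le_sum fun k _ => hk k).trans ?_
  rw [← Finset.sum_mul]
  exact mul_le_mul_of_nonneg_right h1 (by positivity)

theorem nk_bound (I : Finset ι) (o : ι) (r : ℝ) (hr0 : 0 < r) (hr1 : r ≤ 1)
    (hr : r ^ 4 = 1 / 2) (k : ℕ) (hk : 1 ≤ k) : ∀ (j : ℕ) (X : Op ι), NK k j X →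
    ∀ (S : Finset ι) (K : ℝ) (O : Op ι), 0 ≤ K → Cmb o S K O →
    ‖∑ s : ι → Bool, (∏ i, dd I i (s i)) * (Xᴴ * O * X) s s‖ ≤
      K * 9 ^ (S.card * ∑ i ∈ Finset.range (j + 1), k ^ i) * (9 * r ^ (I.erase o).card) := by
  intro j
  induction j with
  | zero =>
    intro X hX S K O hK hO
    obtain ⟨u₂, L₂, Y, hu₂, hL₂, ⟨u₁, L₁, Z, hu₁, hL₁, ⟨u₀, hu₀, rfl⟩, rfl⟩, rfl⟩ := hX
    have hO1 := hO.conjT u₂ hu₂
    have hO2 := Cmb.layer L₂ hL₂ hO1
    have hO3 := hO2.conjT u₁ hu₁
    have hb := cmb_last I o r hr0 hr1 hr u₀ hu₀ L₁ hL₁ hO3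
    have heq : (tens u₂ * layer L₂ * (tens u₁ * layer L₁ * tens u₀))ᴴ * O *
        (tens u₂ * layer L₂ * (tens u₁ * layer L₁ * tens u₀)) =
        (layer L₁ * tens u₀)ᴴ * ((tens u₁)ᴴ * conjL L₂ ((tens u₂)ᴴ * O * tens u₂) * tens u₁) *
          (layer L₁ * tens u₀) := by
      rw [conjL_eq]
      simp only [Matrix.conjTranspose_mul, mul_assoc]
    rw [heq]
    refine hb.trans ?_
    apply mul_le_mul_of_nonneg_right _ (by positivity)
    have ht := touch_facts (S := S) hL₂
    have hp : (9 : ℝ) ^ (touch S L₂).length ≤ 9 ^ S.card := pow_le_pow_right₀ (by norm_num) ht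
    simp only [zero_add, Finset.sum_range_one, pow_zero, mul_one]
    rw [mul_comm K]
    exact mul_le_mul_of_nonneg_right hp hK
  | succ j ih =>
    intro X hX S K O hK hO
    obtain ⟨u, L, Y, hu, hL, hc, hY, rfl⟩ := hX
    have hO1 := hO.conjT u hu
    have hO2 := Cmb.layer L hL hO1
    have hb := ih Y hY _ _ _ (by positivity) hO2
    have heq : (tens u * layer L * Y)ᴴ * O * (tens u * layer L * Y) =
        Yᴴ * conjL L ((tens u)ᴴ * O * tens u) * Y := by
      rw [conjL_eq]
      simp only [Matrix.conjTranspose_mul, mul_assoc]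
    rw [heq]
    refine hb.trans ?_
    apply mul_le_mul_of_nonneg_right _ (by positivity)
    have ht := touch_facts (S := S) hL
    have hS := touch_card (S := S) hk hL hc
    set G := ∑ i ∈ Finset.range (j + 1), k ^ i with hG
    have hG2 : ∑ i ∈ Finset.range (j + 1 + 1), k ^ i = 1 + k * G := by
      rw [Finset.sum_range_succ', hG, Finset.mul_sum, pow_zero, add_comm]
      congr 1
      apply Finset.sum_congr rfl
      intro i _
      rw [pow_succ, mul_comm]
    rw [hG2]
    have hexp : (touch S L).length + (S ∪ usup (touch S L)).card * G ≤ S.card * (1 + k * G) := by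
      have h1 : (S ∪ usup (touch S L)).card * G ≤ k * S.card * G := Nat.mul_le_mul_right _ hS
      have h2 : S.card * (1 + k * G) = S.card + k * S.card * G := by ring
      omega
    have hp : (9 : ℝ) ^ ((touch S L).length + (S ∪ usup (touch S L)).card * G) ≤
        9 ^ (S.card * (1 + k * G)) := pow_le_pow_right₀ (by norm_num) hexp
    rw [pow_add] at hp
    calc 9 ^ (touch S L).length * K * 9 ^ ((S ∪ usup (touch S L)).card * G)
        = K * (9 ^ (touch S L).length * 9 ^ ((S ∪ usup (touch S L)).card * G)) := by ring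
      _ ≤ _ := mul_le_mul_of_nonneg_left hp hK

theorem NF.unitary {k : ℕ} {X : Op ι} (h : NF k X) : Xᴴ * X = 1 := by
  induction k generalizing X with
  | zero =>
    obtain ⟨u, hu, rfl⟩ := h
    exact tens_unitary u hu
  | succ k ih =>
    obtain ⟨u, L, Y, hu, hL, hY, rfl⟩ := h
    have key : ∀ (A B : Op ι), Aᴴ * A = 1 → Aᴴ * (A * B) = B := fun A B h => by
      rw [← mul_assoc, h, one_mul]
    simp only [Matrix.conjTranspose_mul, mul_assoc]
    rw [key _ _ (tens_unitary _ hu), key _ _ (layer_unitary _), ih hY]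

theorem final2 (I : Finset ι) (o : ι) (C₁ C₂ : List (List (Gate ι))) (k j : ℕ) (hk : 1 ≤ k)
    (hC : IsCircuit (C₂ ++ C₁)) (hd₁ : entDepth C₁ ≤ 2) (hd₂ : entDepth C₂ ≤ j)
    (har : ∀ l ∈ C₂, ∀ g, Gate.tof g ∈ l → g.supp.card ≤ k) :
    |corr I (circOp (C₂ ++ C₁)) o| ≤
      11 * 9 ^ (∑ i ∈ Finset.range (j + 1), k ^ i) * (2 : ℝ) ^ (-(I.card : ℝ) / 4) ∧
    ∀ ε : ℝ, (∀ s ∈ inputs I, 1 / 2 + ε ≤ prob (circOp (C₂ ++ C₁)) o (par s) s) →
      2 * ε ≤ 11 * 9 ^ (∑ i ∈ Finset.range (j + 1), k ^ i) * (2 : ℝ) ^ (-(I.card : ℝ) / 4) := by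
  set U := circOp (C₂ ++ C₁) with hU
  have hnk : NK k j U := (circOp_nk k C₁ hd₁ C₂ hC har).mono hd₂
  have hun : Uᴴ * U = 1 := (circOp_nf (C₂ ++ C₁) hC).unitary
  have hb : |corr I U o| ≤
      11 * 9 ^ (∑ i ∈ Finset.range (j + 1), k ^ i) * (2 : ℝ) ^ (-(I.card : ℝ) / 4) := by
    set r : ℝ := (2 : ℝ) ^ (-(1 : ℝ) / 4) with hrdef
    have hr0 : 0 < r := Real.rpow_pos_of_pos (by norm_num) _
    have hr : r ^ 4 = 1 / 2 := by
      rw [hrdef, ← Real.rpow_natCast, ← Real.rpow_mul (by norm_num)]
      norm_num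
    have hr1 : r ≤ 1 := Real.rpow_le_one_of_one_le_of_nonpos (by norm_num) (by norm_num)
    have hpow : (2 : ℝ) ^ (-(I.card : ℝ) / 4) = r ^ I.card := by
      rw [hrdef, ← Real.rpow_natCast, ← Real.rpow_mul (by norm_num)]
      congr 1
      ring
    have h0 : |corr I U o| = ‖((corr I U o : ℝ) : ℂ)‖ := by
      rw [Complex.norm_real, Real.norm_eq_abs]
    rw [h0, corr_eq, hpow]
    have hinit : Cmb o {o} 1 (tens (site o (Matrix.diagonal zf))) :=
      Cmb.init o _ (con_unitary zf_unitary)
    have h1 := nk_bound I o r hr0 hr1 hr k hk j U hnk {o} 1 _ (by norm_num) hinit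
    refine h1.trans ?_
    rw [Finset.card_singleton, one_mul, one_mul]
    have hcard : I.card ≤ (I.erase o).card + 1 := by
      have := Finset.pred_card_le_card_erase (s := I) (a := o)
      omega
    have h2 : r ^ ((I.erase o).card + 1) ≤ r ^ I.card := pow_le_pow_of_le_one hr0.le hr1 hcard
    have hr2 : 9 / 11 ≤ r := by
      by_contra hlt
      push Not at hlt
      have : r ^ 4 < (9 / 11 : ℝ) ^ 4 := pow_lt_pow_left₀ hlt hr0.le (by norm_num)
      rw [hr] at this
      norm_num at this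
    rw [pow_succ] at h2
    have h3 : 0 < r ^ (I.erase o).card := by positivity
    have h4 : 9 * r ^ (I.erase o).card ≤ 11 * r ^ I.card := by nlinarith
    calc 9 ^ (∑ i ∈ Finset.range (j + 1), k ^ i) * (9 * r ^ (I.erase o).card)
        ≤ 9 ^ (∑ i ∈ Finset.range (j + 1), k ^ i) * (11 * r ^ I.card) :=
          mul_le_mul_of_nonneg_left h4 (by positivity)
      _ = _ := by ring
  refine ⟨hb, fun ε hε => ?_⟩
  have h2 : 2 * ε ≤ corr I U o := by
    unfold corr
    rw [le_div_iff₀ (by positivity)]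
    have h3 : ∑ s ∈ inputs I, (2 * ε) ≤
        ∑ s ∈ inputs I, (prob U o (par s) s - prob U o (!par s) s) := by
      apply Finset.sum_le_sum
      intro s hs
      have h4 := hε s hs
      have h5 := prob_add U hun o (par s) s
      linarith
    rw [Finset.sum_const, card_inputs, nsmul_eq_mul] at h3
    push_cast at h3
    linarith
  have h6 := le_abs_self (corr I U o)
  linarith

end Vale.Agent.P368
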