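import Vale.Agent.P368.Stmt

/-!
# P368: number of multiqubit gates
-/

namespace Vale.Agent.P368

/-- number of multiqubit gates of a circuit -/
def multiCount {ι : Type} [DecidableEq ι] (C : List (List (Gate ι))) : ℕ :=
  (C.map fun l => l.countP Gate.multi).sum

end Vale.Agent.P368
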