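import Vale.Agent.P368.Cone
import Vale.Agent.P368.Stmt2

/-!
# P368: circuits with few multiqubit gates outside the first entangling layer
-/

namespace Vale.Agent.P368

open Matrix

variable {ι : Type} [DecidableEq ι] [Fintype ι]

/-- a layer in normal form, with the number of Toffoli gates -/
theorem layerOp_nf' (l : List (Gate ι)) (hl : l.Pairwise fun g h => Disjoint g.supp h.supp) :
    ∃ (L : List (Tof ι)) (u : ι → M2), (L.Pairwise fun g h => Disjoint g.supp h.supp) ∧
      (∀ i, u i ∈ unitary M2) ∧ (∀ g ∈ L, Gate.tof g ∈ l) ∧ L.length = l.countP Gate.multi ∧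
      layerOp l = layer L * tens u := by
  induction l with
  | nil => exact ⟨[], fun _ => 1, List.Pairwise.nil, fun _ => one_mem _, by simp, by simp, by
      rw [tens_one]; simp [layerOp, layer]⟩
  | cons g l ih =>
    rw [List.pairwise_cons] at hl
    obtain ⟨hg, hl⟩ := hl
    obtain ⟨L, u, hL, hu, hmem, hlen, heq⟩ := ih hl
    have hop : layerOp (g :: l) = g.op * layerOp l := by simp [layerOp]
    cases g with
    | one i v hv =>
      refine ⟨L, fun j => Function.update (fun _ => (1 : M2)) i v j * u j, hL, ?_, ?_, ?_, ?_⟩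
      · intro j
        dsimp only
        by_cases hj : j = i
        · subst hj; rw [Function.update_self]; exact mul_mem hv (hu _)
        · rw [Function.update_of_ne hj, one_mul]; exact hu j
      · intro g hg'; exact List.mem_cons_of_mem _ (hmem g hg')
      · rw [List.countP_cons_of_neg (by simp [Gate.multi]), hlen]
      · rw [hop, heq, ← tens_mul]
        have hc := layer_comm L i v (fun g' hg' => by
          have := hg _ (hmem g' hg')
          simpa [Gate.supp] using this)
        simp only [Gate.op]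
        rw [← mul_assoc, hc, mul_assoc]
    | tof g =>
      refine ⟨g :: L, u, ?_, hu, ?_, ?_, ?_⟩
      · rw [List.pairwise_cons]
        exact ⟨fun g' hg' => hg _ (hmem g' hg'), hL⟩
      · intro g' hg'
        rcases List.mem_cons.1 hg' with rfl | h
        · exact List.mem_cons_self
        · exact List.mem_cons_of_mem _ (hmem g' h)
      · rw [List.countP_cons_of_pos (by simp [Gate.multi]), List.length_cons, hlen]
      · rw [hop, heq]
        simp [Gate.op, layer, mul_assoc]

theorem Cmb.univ {o : ι} {S : Finset ι} {K : ℝ} {X : Op ι} (h : Cmb o S K X) :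
    Cmb o Finset.univ K X := by
  obtain ⟨J, hJ, c, m, h1, h2, h3, h4⟩ := h
  exact ⟨J, hJ, c, m, h1, h2, fun j i hi => absurd (Finset.mem_univ i) hi, h4⟩

theorem Cmb.conjL_univ {o : ι} : ∀ (L : List (Tof ι)) {K : ℝ} {X : Op ι},
    Cmb o Finset.univ K X → Cmb o Finset.univ (9 ^ L.length * K) (conjL L X) := by
  intro L
  induction L with
  | nil => intro K X h; simpa [conjL] using h
  | cons g L ih =>
    intro K X h
    rw [conjL, List.length_cons, pow_succ, mul_assoc]
    exact ih (h.gate g).univ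

theorem count_bound (I : Finset ι) (o : ι) (r : ℝ) (hr0 : 0 < r) (hr1 : r ≤ 1)
    (hr : r ^ 4 = 1 / 2) (C₁ : List (List (Gate ι))) (hd : entDepth C₁ ≤ 1) :
    ∀ (C₂ : List (List (Gate ι))), IsCircuit (C₂ ++ C₁) →
    ∀ (K : ℝ) (O : Op ι), Cmb o Finset.univ K O →
    ‖∑ s : ι → Bool, (∏ i, dd I i (s i)) *
      ((circOp (C₂ ++ C₁))ᴴ * O * circOp (C₂ ++ C₁)) s s‖ ≤
      9 ^ multiCount C₂ * K * (9 * r ^ (I.erase o).card) := by
  intro C₂
  induction C₂ with
  | nil =>
    intro hC K O hO
    have hnf : NF 1 (circOp C₁) := (circOp_nf C₁ hC).mono hd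
    obtain ⟨u₁, L₁, Z, hu₁, hL₁, ⟨u₀, hu₀, rfl⟩, heq⟩ := hnf
    rw [List.nil_append, heq]
    have hb := cmb_last I o r hr0 hr1 hr u₀ hu₀ L₁ hL₁ (hO.conjT u₁ hu₁)
    have h1 : (tens u₁ * layer L₁ * tens u₀)ᴴ * O * (tens u₁ * layer L₁ * tens u₀) =
        (layer L₁ * tens u₀)ᴴ * ((tens u₁)ᴴ * O * tens u₁) * (layer L₁ * tens u₀) := by
      simp only [Matrix.conjTranspose_mul, mul_assoc]
    rw [h1]
    simpa [multiCount] using hb
  | cons l C₂ ih =>
    intro hC K O hO
    obtain ⟨L, u, hL, hu, hmem, hlen, heq⟩ := layerOp_nf' l (hC l List.mem_cons_self)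
    have ih' := ih (fun l' hl' => hC l' (List.mem_cons_of_mem _ hl'))
    have hop : circOp ((l :: C₂) ++ C₁) = layer L * tens u * circOp (C₂ ++ C₁) := by
      rw [← heq]; simp [circOp]
    have hO2 := (Cmb.conjL_univ L hO).conjT u hu
    have hb := ih' _ _ hO2
    have h1 : (layer L * tens u * circOp (C₂ ++ C₁))ᴴ * O * (layer L * tens u * circOp (C₂ ++ C₁)) =
        (circOp (C₂ ++ C₁))ᴴ * ((tens u)ᴴ * conjL L O * tens u) * circOp (C₂ ++ C₁) := by
      rw [conjL_eq]
      simp only [Matrix.conjTranspose_mul, mul_assoc]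
    rw [hop, h1]
    refine hb.trans (le_of_eq ?_)
    have h2 : multiCount (l :: C₂) = L.length + multiCount C₂ := by
      simp [multiCount, hlen]
    rw [h2, pow_add]
    ring

theorem final3 (I : Finset ι) (o : ι) (C₁ C₂ : List (List (Gate ι))) (m : ℕ)
    (hC : IsCircuit (C₂ ++ C₁)) (hd₁ : entDepth C₁ ≤ 1) (hm : multiCount C₂ ≤ m) :
    |corr I (circOp (C₂ ++ C₁)) o| ≤ 11 * 9 ^ m * (2 : ℝ) ^ (-(I.card : ℝ) / 4) ∧
    ∀ ε : ℝ, (∀ s ∈ inputs I, 1 / 2 + ε ≤ prob (circOp (C₂ ++ C₁)) o (par s) s) →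
      2 * ε ≤ 11 * 9 ^ m * (2 : ℝ) ^ (-(I.card : ℝ) / 4) := by
  set U := circOp (C₂ ++ C₁) with hU
  have hun : Uᴴ * U = 1 := (circOp_nf (C₂ ++ C₁) hC).unitary
  have hb : |corr I U o| ≤ 11 * 9 ^ m * (2 : ℝ) ^ (-(I.card : ℝ) / 4) := by
    set r : ℝ := (2 : ℝ) ^ (-(1 : ℝ) / 4) with hrdef
    have hr0 : 0 < r := Real.rpow_pos_of_pos (by norm_num) _
    have hr : r ^ 4 = 1 / 2 := by
      rw [hrdef, ← Real.rpow_natCast, ← Real.rpow_mul (by norm_num)]
      norm_num
    have hr1 : r ≤ 1 := Real.rpow_le_one_of_one_le_of_nonpos (by norm_num) (by norm_num)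
    have hpow : (2 : ℝ) ^ (-(I.card : ℝ) / 4) = r ^ I.card := by
      rw [hrdef, ← Real.rpow_natCast, ← Real.rpow_mul (by norm_num)]
      congr 1
      ring
    have h0 : |corr I U o| = ‖((corr I U o : ℝ) : ℂ)‖ := by
      rw [Complex.norm_real, Real.norm_eq_abs]
    rw [h0, corr_eq, hpow]
    have hinit : Cmb o Finset.univ 1 (tens (site o (Matrix.diagonal zf))) :=
      (Cmb.init o _ (con_unitary zf_unitary)).univ
    have h1 := count_bound I o r hr0 hr1 hr C₁ hd₁ C₂ hC 1 _ hinit
    refine h1.trans ?_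
    rw [mul_one]
    have hcard : I.card ≤ (I.erase o).card + 1 := by
      have := Finset.pred_card_le_card_erase (s := I) (a := o)
      omega
    have h2 : r ^ ((I.erase o).card + 1) ≤ r ^ I.card := pow_le_pow_of_le_one hr0.le hr1 hcard
    have hr2 : 9 / 11 ≤ r := by
      by_contra hlt
      push Not at hlt
      have : r ^ 4 < (9 / 11 : ℝ) ^ 4 := pow_lt_pow_left₀ hlt hr0.le (by norm_num)
      rw [hr] at this
      norm_num at this
    rw [pow_succ] at h2
    have h3 : 0 < r ^ (I.erase o).card := by positivity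
    have h4 : 9 * r ^ (I.erase o).card ≤ 11 * r ^ I.card := by nlinarith
    have h5 : (9 : ℝ) ^ multiCount C₂ ≤ 9 ^ m := pow_le_pow_right₀ (by norm_num) hm
    calc 9 ^ multiCount C₂ * (9 * r ^ (I.erase o).card)
        ≤ 9 ^ m * (11 * r ^ I.card) := mul_le_mul h5 h4 (by positivity) (by positivity)
      _ = _ := by ring
  refine ⟨hb, fun ε hε => ?_⟩
  have h2 : 2 * ε ≤ corr I U o := by
    unfold corr
    rw [le_div_iff₀ (by positivity)]
    have h3 : ∑ s ∈ inputs I, (2 * ε) ≤
        ∑ s ∈ inputs I, (prob U o (par s) s - prob U o (!par s) s) := by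
      apply Finset.sum_le_sum
      intro s hs
      have h4 := hε s hs
      have h5 := prob_add U hun o (par s) s
      linarith
    rw [Finset.sum_const, card_inputs, nsmul_eq_mul] at h3
    push_cast at h3
    linarith
  have h6 := le_abs_self (corr I U o)
  linarith

end Vale.Agent.P368
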