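import Vale.Agent.P368.Stmt

/-!
# P368: normal form of circuits of entangling depth two
-/

namespace Vale.Agent.P368

open Matrix

variable {ι : Type} [DecidableEq ι]

/-- matrix of a layer of Toffoli gates -/
def layer [Fintype ι] (L : List (Tof ι)) : Op ι := (L.map Tof.op).prod

/-- normal form of a circuit of entangling depth two -/
structure Circ2 (ι : Type) [DecidableEq ι] where
  u₀ : ι → M2
  u₁ : ι → M2
  u₂ : ι → M2
  hu₀ : ∀ i, u₀ i ∈ unitary M2
  hu₁ : ∀ i, u₁ i ∈ unitary M2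
  hu₂ : ∀ i, u₂ i ∈ unitary M2
  L₁ : List (Tof ι)
  L₂ : List (Tof ι)
  disj₁ : L₁.Pairwise fun g h => Disjoint g.supp h.supp
  disj₂ : L₂.Pairwise fun g h => Disjoint g.supp h.supp

/-- the unitary of the circuit -/
def Circ2.op [Fintype ι] (C : Circ2 ι) : Op ι :=
  tens C.u₂ * layer C.L₂ * tens C.u₁ * layer C.L₁ * tens C.u₀

end Vale.Agent.P368
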