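import Vale.Agent.P368.Alg

/-!
# P368: factorisation over the gates of the first layer
-/

namespace Vale.Agent.P368

open Matrix

variable {ι : Type} [DecidableEq ι] [Fintype ι]

/-- contribution of one gate -/
noncomputable def cg (ρ m : ι → M2) (g : Tof ι) : ℂ :=
  ∑ k : Fin 4, cf k * ∏ i ∈ g.supp, (ρ i * wd (g.q i) (m i) k).trace

/-- qubits touched by a list of gates -/
def usup : List (Tof ι) → Finset ι
  | [] => ∅
  | g :: L => g.supp ∪ usup L

omit [Fintype ι] in
theorem usup_disj (g : Tof ι) (L : List (Tof ι)) (h : ∀ h' ∈ L, Disjoint g.supp h'.supp) :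
    Disjoint g.supp (usup L) := by
  induction L with
  | nil => simp [usup]
  | cons a L ih =>
    rw [usup, Finset.disjoint_union_right]
    exact ⟨h a (by simp), ih fun h' hh => h h' (by simp [hh])⟩

omit [Fintype ι] in
theorem cg_congr (ρ ρ' m m' : ι → M2) (g : Tof ι)
    (h : ∀ i ∈ g.supp, ρ i = ρ' i ∧ m i = m' i) : cg ρ m g = cg ρ' m' g := by
  unfold cg
  apply Finset.sum_congr rfl
  intro k _
  congr 1
  apply Finset.prod_congr rfl
  intro i hi
  rw [(h i hi).1, (h i hi).2]

theorem trace_conjL (ρ : ι → M2) : ∀ (L : List (Tof ι)) (m : ι → M2),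
    (L.Pairwise fun g h => Disjoint g.supp h.supp) →
    (tens ρ * conjL L (tens m)).trace =
      (L.map (cg ρ m)).prod * ∏ i ∈ (usup L)ᶜ, (ρ i * m i).trace := by
  intro L
  induction L with
  | nil =>
    intro m _
    simp only [conjL, List.map_nil, List.prod_nil, one_mul, usup, Finset.compl_empty]
    rw [tens_mul, trace_tens]
  | cons g L ih =>
    intro m hL
    rw [List.pairwise_cons] at hL
    obtain ⟨hg, hL⟩ := hL
    have hdis := usup_disj g L hg
    rw [conjL, conj_gate, conjL_sum]
    simp only [conjL_smul, Finset.mul_sum, mul_smul_comm, Matrix.trace_sum, Matrix.trace_smul,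
      smul_eq_mul]
    have hk : ∀ k : Fin 4, (tens ρ * conjL L (tens fun i => wd (g.q i) (m i) k)).trace
        = (L.map (cg ρ m)).prod * ((∏ i ∈ g.supp, (ρ i * wd (g.q i) (m i) k).trace) *
          ∏ i ∈ (usup (g :: L))ᶜ, (ρ i * m i).trace) := by
      intro k
      rw [ih _ hL]
      have hoff : ∀ i, i ∉ g.supp → wd (g.q i) (m i) k = m i := by
        intro i hi
        rw [g.q_notMem hi]
        fin_cases k <;> simp [wd]
      congr 1
      · congr 1
        apply List.map_congr_left
        intro h hh
        apply cg_congr
        intro i hi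
        exact ⟨rfl, hoff i (fun hgi => (Finset.disjoint_left.1 (hg h hh)) hgi hi)⟩
      · have hsplit : (usup L)ᶜ = g.supp ∪ (usup (g :: L))ᶜ := by
          ext i
          simp only [usup, Finset.mem_compl, Finset.mem_union, not_or]
          constructor
          · intro hi
            by_cases hgi : i ∈ g.supp
            · exact Or.inl hgi
            · exact Or.inr ⟨hgi, hi⟩
          · rintro (hgi | hgi)
            · exact Finset.disjoint_left.1 hdis hgi
            · exact hgi.2
        have hd2 : Disjoint g.supp (usup (g :: L))ᶜ := by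
          rw [Finset.disjoint_left]
          intro i hi hi'
          simp only [usup, Finset.mem_compl, Finset.mem_union, not_or] at hi'
          exact hi'.1 hi
        rw [hsplit, Finset.prod_union hd2]
        congr 1
        apply Finset.prod_congr rfl
        intro i hi
        simp only [usup, Finset.mem_compl, Finset.mem_union, not_or] at hi
        rw [hoff i hi.1]
    simp only [hk]
    rw [List.map_cons, List.prod_cons]
    unfold cg
    rw [Finset.sum_mul, Finset.sum_mul]
    apply Finset.sum_congr rfl
    intro k _
    ring

end Vale.Agent.P368
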