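import Vale.Agent.P368.Bd

/-!
# P368: the parity correlation of circuits of entangling depth two
-/

namespace Vale.Agent.P368

open Matrix

variable {ι : Type} [DecidableEq ι] [Fintype ι]

/-- the observable `Z` -/
def zf : Bool → ℂ := fun b => if b = true then -1 else 1

/-- one-site observable -/
def site (o : ι) (A : M2) : ι → M2 := Function.update (fun _ => (1 : M2)) o A

theorem site_zz (o : ι) : tens (site o (Matrix.diagonal zf)) =
    Matrix.diagonal (fun y : ι → Bool => zf (y o)) := by
  have h : site o (Matrix.diagonal zf) =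
      fun i => Matrix.diagonal (if i = o then zf else fun _ => (1 : ℂ)) := by
    funext i
    unfold site
    by_cases hi : i = o
    · subst hi; simp
    · rw [Function.update_of_ne hi, if_neg hi]
      exact Matrix.diagonal_one.symm
  rw [h, tens_diagonal]
  congr 1
  funext y
  rw [Finset.prod_eq_single o]
  · simp
  · intro i _ hi; simp [hi]
  · intro h; exact absurd (Finset.mem_univ o) h

theorem diag_obs (U : Op ι) (o : ι) (s : ι → Bool) :
    (Uᴴ * tens (site o (Matrix.diagonal zf)) * U) s s =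
      ((prob U o false s - prob U o true s : ℝ) : ℂ) := by
  rw [site_zz, mul_assoc, Matrix.mul_apply]
  simp only [Matrix.diagonal_mul, Matrix.conjTranspose_apply, prob]
  rw [← Finset.sum_sub_distrib]
  push_cast
  apply Finset.sum_congr rfl
  intro y _
  have h : star (U y s) * (zf (y o) * U y s) = zf (y o) * (‖U y s‖ : ℂ) ^ 2 := by
    have h1 : star (U y s) * U y s = (‖U y s‖ : ℂ) ^ 2 := by
      rw [RCLike.star_def, mul_comm, Complex.mul_conj, Complex.normSq_eq_norm_sq]
      push_cast; rfl
    rw [← h1]; ring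
  rw [h]
  cases hy : y o <;> simp [zf]

omit [Fintype ι] in
theorem dI_eq (b : Bool) : dI b = (1 / 2) * (if b = true then -1 else 1) := by
  cases b <;> simp [dI] <;> norm_num

theorem weight_eq (I : Finset ι) (s : ι → Bool) : ∏ i, dd I i (s i) =
    if s ∈ inputs I then (1 / 2 : ℂ) ^ I.card * (if par s = true then -1 else 1) else 0 := by
  split_ifs with h hp
  all_goals try simp only [inputs, Finset.mem_filter, Finset.mem_univ, true_and] at h
  · have h1 : ∀ i, dd I i (s i) = (if i ∈ I then (1 / 2 : ℂ) else 1) *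
        (if s i = true then -1 else 1) := by
      intro i
      unfold dd
      by_cases hi : i ∈ I
      · rw [if_pos hi, if_pos hi, dI_eq]
      · rw [if_neg hi, if_neg hi, h i hi]; simp [dA]
    simp only [h1, Finset.prod_mul_distrib]
    rw [Finset.prod_ite_mem, Finset.univ_inter, Finset.prod_const, Finset.prod_ite,
      Finset.prod_const, Finset.prod_const_one, mul_one]
    congr 1
    simp only [par, decide_eq_true_eq] at hp
    rw [← Nat.odd_iff] at hp
    exact hp.neg_one_pow
  · have h1 : ∀ i, dd I i (s i) = (if i ∈ I then (1 / 2 : ℂ) else 1) *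
        (if s i = true then -1 else 1) := by
      intro i
      unfold dd
      by_cases hi : i ∈ I
      · rw [if_pos hi, if_pos hi, dI_eq]
      · rw [if_neg hi, if_neg hi, h i hi]; simp [dA]
    simp only [h1, Finset.prod_mul_distrib]
    rw [Finset.prod_ite_mem, Finset.univ_inter, Finset.prod_const, Finset.prod_ite,
      Finset.prod_const, Finset.prod_const_one, mul_one]
    congr 1
    simp only [par, decide_eq_true_eq] at hp
    rw [← Nat.odd_iff, Nat.not_odd_iff_even] at hp
    exact hp.neg_one_pow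
  · push Not at h
    obtain ⟨i, hi, hs⟩ := h
    apply Finset.prod_eq_zero (Finset.mem_univ i)
    have : s i = true := by simpa using hs
    simp [dd, hi, this, dA]

theorem corr_eq (I : Finset ι) (U : Op ι) (o : ι) :
    ((corr I U o : ℝ) : ℂ) = ∑ s : ι → Bool, (∏ i, dd I i (s i)) *
      (Uᴴ * tens (site o (Matrix.diagonal zf)) * U) s s := by
  simp only [weight_eq, diag_obs, ite_mul, zero_mul]
  rw [← Finset.sum_filter]
  have hf : (Finset.univ.filter fun s => s ∈ inputs I) = inputs I := by
    ext s; simp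
  rw [hf]
  unfold corr
  push_cast
  rw [Finset.sum_div]
  apply Finset.sum_congr rfl
  intro s _
  cases hp : par s
  · simp only [Bool.not_false, Bool.false_eq_true, if_false, mul_one, one_div, inv_pow]
    field_simp
  · simp only [Bool.not_true, if_true, one_div, inv_pow]
    field_simp
    ring

theorem HH.conj {o : ι} {m : ι → M2} (hm : HH o m) (u : ι → M2) (hu : ∀ i, u i ∈ unitary M2) :
    HH o (fun i => (u i)ᴴ * m i * u i) := by
  refine ⟨((con_unitary (unitary_conj (hu o))).mul hm.1).mul (con_unitary (hu o)), fun i hi => ?_⟩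
  obtain ⟨h1, h2, h3⟩ := hm.2 i hi
  refine ⟨?_, ?_, h3.conj (hu i)⟩
  · simp only [Matrix.conjTranspose_mul, Matrix.conjTranspose_conjTranspose, h1, mul_assoc]
  · have h4 : u i * (u i)ᴴ = 1 := (Unitary.mem_iff.1 (hu i)).2
    calc (u i)ᴴ * m i * u i * ((u i)ᴴ * m i * u i)
        = (u i)ᴴ * m i * (u i * (u i)ᴴ) * m i * u i := by simp only [mul_assoc]
      _ = (u i)ᴴ * (m i * m i) * u i := by rw [h4, mul_one]; simp only [mul_assoc]
      _ = _ := by rw [h2]

theorem zf_unitary : Matrix.diagonal zf ∈ unitary M2 := by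
  rw [Unitary.mem_iff, Matrix.star_eq_conjTranspose, Matrix.diagonal_conjTranspose,
    Matrix.diagonal_mul_diagonal, Matrix.diagonal_mul_diagonal]
  constructor
  · rw [← Matrix.diagonal_one]
    congr 1
    funext b; cases b <;> simp [zf]
  · rw [← Matrix.diagonal_one]
    congr 1
    funext b; cases b <;> simp [zf]

theorem main_bound (I : Finset ι) (C : Circ2 ι) (o : ι) (r : ℝ) (hr0 : 0 < r) (hr1 : r ≤ 1)
    (hr : r ^ 4 = 1 / 2) : |corr I C.op o| ≤ 81 * r ^ (I.erase o).card := by
  have h0 : |corr I C.op o| = ‖((corr I C.op o : ℝ) : ℂ)‖ := by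
    rw [Complex.norm_real, Real.norm_eq_abs]
  rw [h0, corr_eq]
  set A : M2 := (C.u₂ o)ᴴ * Matrix.diagonal zf * C.u₂ o with hA
  have hAc : Con A := ((con_unitary (unitary_conj (C.hu₂ o))).mul (con_unitary zf_unitary)).mul
    (con_unitary (C.hu₂ o))
  obtain ⟨c, m, hc, hm, hlast⟩ := last_layer o C.L₂ C.disj₂ A hAc
  have hT2 : (tens C.u₂)ᴴ * tens (site o (Matrix.diagonal zf)) * tens C.u₂ =
      tens (Function.update (fun _ => (1 : M2)) o A) := by
    rw [tens_conj, tens_mul, tens_mul]
    congr 1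
    funext i
    unfold site
    by_cases hi : i = o
    · subst hi; simp [hA]
    · rw [Function.update_of_ne hi, Function.update_of_ne hi, mul_one]
      exact (Unitary.mem_iff.1 (C.hu₂ i)).1
  have hU : (C.op)ᴴ * tens (site o (Matrix.diagonal zf)) * C.op =
      (tens C.u₀)ᴴ * (conjL C.L₁ (∑ k, c k • tens (fun i => (C.u₁ i)ᴴ * m k i * C.u₁ i))) *
        tens C.u₀ := by
    have h1 : ∑ k, c k • tens (fun i => (C.u₁ i)ᴴ * m k i * C.u₁ i) =
        (tens C.u₁)ᴴ * (∑ k, c k • tens (m k)) * tens C.u₁ := by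
      rw [Finset.mul_sum, Finset.sum_mul]
      apply Finset.sum_congr rfl
      intro k _
      rw [mul_smul_comm, smul_mul_assoc, tens_conj, tens_mul, tens_mul]
    rw [h1, ← hlast, ← hT2, conjL_eq, conjL_eq]
    unfold Circ2.op
    simp only [Matrix.conjTranspose_mul, mul_assoc]
  rw [hU, ← trace_weighted, ← tens_rr]
  have hrr : (fun i => C.u₀ i * Matrix.diagonal (dd I i) * (C.u₀ i)ᴴ) = rr I C.u₀ := rfl
  rw [hrr, conjL_sum, Finset.mul_sum, Matrix.trace_sum]
  refine (norm_sum_le _ _).trans ?_
  have hk : ∀ k : Fin 4, ‖(tens (rr I C.u₀) * conjL C.L₁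
      (c k • tens (fun i => (C.u₁ i)ᴴ * m k i * C.u₁ i))).trace‖ ≤
      ‖c k‖ * (9 * r ^ (I.erase o).card) := by
    intro k
    rw [conjL_smul, mul_smul_comm, Matrix.trace_smul, norm_smul]
    apply mul_le_mul_of_nonneg_left _ (norm_nonneg _)
    exact layer_bound I o C.u₀ C.hu₀ _ ((hm k).conj C.u₁ C.hu₁) r hr0 hr1 hr C.L₁ C.disj₁
  refine (Finset.sum_le_sum fun k _ => hk k).trans ?_
  rw [← Finset.sum_mul]
  have : 0 ≤ r ^ (I.erase o).card := by positivity
  nlinarith

theorem corr_bound (I : Finset ι) (C : Circ2 ι) (o : ι) :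
    |corr I C.op o| ≤ 100 * (2 : ℝ) ^ (-(I.card : ℝ) / 4) := by
  set r : ℝ := (2 : ℝ) ^ (-(1 : ℝ) / 4) with hrdef
  have hr0 : 0 < r := Real.rpow_pos_of_pos (by norm_num) _
  have hr : r ^ 4 = 1 / 2 := by
    rw [hrdef, ← Real.rpow_natCast, ← Real.rpow_mul (by norm_num)]
    norm_num
  have hr1 : r ≤ 1 := Real.rpow_le_one_of_one_le_of_nonpos (by norm_num) (by norm_num)
  have hpow : (2 : ℝ) ^ (-(I.card : ℝ) / 4) = r ^ I.card := by
    rw [hrdef, ← Real.rpow_natCast, ← Real.rpow_mul (by norm_num)]
    congr 1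
    ring
  rw [hpow]
  refine (main_bound I C o r hr0 hr1 hr).trans ?_
  have hcard : I.card ≤ (I.erase o).card + 1 := by
    have := Finset.pred_card_le_card_erase (s := I) (a := o)
    omega
  have h1 : r ^ ((I.erase o).card + 1) ≤ r ^ I.card := pow_le_pow_of_le_one hr0.le hr1 hcard
  have hr2 : 81 / 100 ≤ r := by
    by_contra hlt
    push Not at hlt
    have : r ^ 4 < (81 / 100 : ℝ) ^ 4 := pow_lt_pow_left₀ hlt hr0.le (by norm_num)
    rw [hr] at this
    norm_num at this
  rw [pow_succ] at h1
  have h2 : 0 < r ^ (I.erase o).card := by positivity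
  nlinarith

end Vale.Agent.P368
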