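import Vale.Agent.P368.NF

/-!
# P368: the trace bound of a gate for rank-one families
-/

namespace Vale.Agent.P368

open Matrix
open scoped ComplexOrder

variable {ι : Type} [DecidableEq ι] [Fintype ι]

/-- first basis vector -/
def e0 : Bool → ℂ := fun x => if x = false then 1 else 0

/-- factorisation data of a one-qubit operator -/
structure Fct (X A B E : M2) (α β : ℝ) (κ : ℂ) : Prop where
  eq : X = A * Bᴴ
  aa : Aᴴ * A = (α : ℂ) • E
  bb : Bᴴ * B = (β : ℂ) • E
  ab : Aᴴ * B = κ • E
  ba : Bᴴ * A = (star κ) • E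
  ae : A * E = A
  be : B * E = B
  ee : E false false = 1
  a0 : 0 ≤ α
  a1 : α ≤ 1
  b0 : 0 ≤ β
  b1 : β ≤ 1

omit [DecidableEq ι] [Fintype ι] in
theorem good_fct {X : M2} (h : Good X) : ∃ A B E α β κ, Fct X A B E α β κ := by
  rcases h with rfl | ⟨a, b, ha, hb, rfl⟩
  · exact ⟨1, 1, 1, 1, 1, 1, by simp, by simp, by simp, by simp, by simp, by simp, by simp, by simp,
      by norm_num, by norm_num, by norm_num, by norm_num⟩
  · have key : ∀ u v : Bool → ℂ, (Matrix.vecMulVec u e0)ᴴ * Matrix.vecMulVec v e0 =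
        (star (u false) * v false + star (u true) * v true) • Matrix.vecMulVec e0 e0 := by
      intro u v
      ext y x
      cases y <;> cases x <;> simp [Matrix.mul_apply, Matrix.vecMulVec_apply, e0] <;> ring
    have hn : ∀ u : Bool → ℂ, star (u false) * u false + star (u true) * u true =
        ((nrm u : ℝ) : ℂ) := by
      intro u
      rw [nrm_eq]
      simp only [dotProduct, Fintype.sum_bool, Pi.star_apply]
      ring
    refine ⟨Matrix.vecMulVec a e0, Matrix.vecMulVec b e0, Matrix.vecMulVec e0 e0, nrm a, nrm b,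
      star (a false) * b false + star (a true) * b true, ?_, ?_, ?_, ?_, ?_, ?_, ?_, ?_,
      nrm_nonneg a, ha, nrm_nonneg b, hb⟩
    · ext y x
      cases y <;> cases x <;> simp [Matrix.mul_apply, Matrix.vecMulVec_apply, e0]
    · rw [key, hn]
    · rw [key, hn]
    · rw [key]
    · rw [key]
      congr 1
      simp only [star_add, star_mul, star_star]
    · ext y x
      cases y <;> cases x <;> simp [Matrix.mul_apply, Matrix.vecMulVec_apply, e0]
    · ext y x
      cases y <;> cases x <;> simp [Matrix.mul_apply, Matrix.vecMulVec_apply, e0]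
    · simp [Matrix.vecMulVec_apply, e0]

omit [DecidableEq ι] in
theorem tens_smul (c : ι → ℂ) (E : ι → M2) : tens (fun i => c i • E i) = (∏ i, c i) • tens E := by
  ext y x
  simp [tens, Finset.prod_mul_distrib]

omit [DecidableEq ι] [Fintype ι] in
/-- diagonal entries of a scaled projector -/
theorem diag_scaled {κ : Type} [Fintype κ] [DecidableEq κ] (N V : Matrix κ κ ℂ) (γ : ℝ)
    (hγ : 0 ≤ γ) (hN : Nᴴ = N) (hNN : N * N = (γ : ℂ) • N) (hV : Vᴴ * V = 1) (s : κ) :
    ∃ r : ℝ, 0 ≤ r ∧ r ≤ γ ∧ (Vᴴ * N * V) s s = (r : ℂ) := by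
  rcases hγ.eq_or_lt with h | h
  · have h0 : N = 0 := by
      have : Nᴴ * N = 0 := by rw [hN, hNN, ← h]; simp
      exact Matrix.conjTranspose_mul_self_eq_zero.1 this
    refine ⟨0, le_refl _, by rw [← h], ?_⟩
    rw [h0]; simp
  · have hγc : (γ : ℂ) ≠ 0 := by exact_mod_cast h.ne'
    set P : Matrix κ κ ℂ := ((γ : ℂ)⁻¹) • N with hP
    have h1 : Pᴴ = P := by
      rw [hP, Matrix.conjTranspose_smul, hN]
      congr 1
      rw [star_inv₀, RCLike.star_def, Complex.conj_ofReal]
    have h2 : P * P = P := by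
      rw [hP, smul_mul_assoc, mul_smul_comm, hNN, smul_smul, smul_smul]
      congr 1
      field_simp
    obtain ⟨r, hr0, hr1, hr⟩ := diag_mem P V h1 h2 hV s
    refine ⟨γ * r, by positivity, by nlinarith, ?_⟩
    have h3 : N = (γ : ℂ) • P := by rw [hP, smul_smul, mul_inv_cancel₀ hγc, one_smul]
    rw [h3, mul_smul_comm, smul_mul_assoc, Matrix.smul_apply, hr]
    push_cast
    rfl

/-- weighted traces of a product of rank-one or identity factors -/
theorem weighted_good (W : (ι → Bool) → ℝ) (κ₀ : ℝ)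
    (hW : ∀ (x : (ι → Bool) → ℝ) (γ : ℝ), 0 ≤ γ → (∀ s, 0 ≤ x s) → (∀ s, x s ≤ γ) →
      |∑ s, W s * x s| ≤ κ₀ * γ) (hκ₀ : 0 ≤ κ₀)
    (m : ι → M2) (hm : ∀ i, Good (m i)) (V : Op ι) (hV : Vᴴ * V = 1) :
    ‖∑ s, (W s : ℂ) * (Vᴴ * tens m * V) s s‖ ≤ κ₀ := by
  choose A B E α β κ hF using fun i => good_fct (hm i)
  have hm' : tens m = tens A * (tens B)ᴴ := by
    rw [tens_conj, tens_mul]; congr 1; funext i; exact (hF i).eq
  set a : ℝ := ∏ i, α i with ha
  set b : ℝ := ∏ i, β i with hb
  set k : ℂ := ∏ i, κ i with hk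
  have haa : (tens A)ᴴ * tens A = (a : ℂ) • tens E := by
    rw [tens_conj, tens_mul]
    simp only [fun i => (hF i).aa]
    rw [tens_smul, ha]; push_cast; rfl
  have hbb : (tens B)ᴴ * tens B = (b : ℂ) • tens E := by
    rw [tens_conj, tens_mul]
    simp only [fun i => (hF i).bb]
    rw [tens_smul, hb]; push_cast; rfl
  have hab : (tens A)ᴴ * tens B = k • tens E := by
    rw [tens_conj, tens_mul]
    simp only [fun i => (hF i).ab]
    rw [tens_smul]
  have hba : (tens B)ᴴ * tens A = (star k) • tens E := by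
    rw [tens_conj, tens_mul]
    simp only [fun i => (hF i).ba]
    rw [tens_smul, hk, star_prod]
  have hae : tens A * tens E = tens A := by
    rw [tens_mul]; simp only [fun i => (hF i).ae]
  have hbe : tens B * tens E = tens B := by
    rw [tens_mul]; simp only [fun i => (hF i).be]
  have ha1 : a ≤ 1 := Finset.prod_le_one (fun i _ => (hF i).a0) (fun i _ => (hF i).a1)
  have hb1 : b ≤ 1 := Finset.prod_le_one (fun i _ => (hF i).b0) (fun i _ => (hF i).b1)
  have hE0 : tens E (fun _ => false) (fun _ => false) = 1 := by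
    simp only [tens]
    exact Finset.prod_eq_one fun i _ => (hF i).ee
  set c : ℂ := ∑ s, (W s : ℂ) * (Vᴴ * tens m * V) s s with hc
  -- the four quantities
  have step : ∀ l : ℂ, star l * l = 1 → ∃ γ : ℝ, 0 ≤ γ ∧
      (γ : ℂ) = a + b + l * k + star l * star k ∧
      |(∑ s, (W s : ℂ) * (Vᴴ * ((tens A + l • tens B) * (tens A + l • tens B)ᴴ) * V) s s).re| ≤
        κ₀ * γ ∧ True := by
    intro l hl
    set Cc : Op ι := tens A + l • tens B with hCc
    have hCC : Ccᴴ * Cc = ((a : ℂ) + b + l * k + star l * star k) • tens E := by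
      rw [hCc, Matrix.conjTranspose_add, Matrix.conjTranspose_smul, add_mul, mul_add, mul_add,
        haa, smul_mul_assoc, smul_mul_assoc, mul_smul_comm, mul_smul_comm, hab, hba, hbb]
      simp only [smul_smul]
      rw [← add_smul, ← add_smul, ← add_smul]
      congr 1
      rw [← mul_assoc, hl]
      ring
    have hCE : Cc * tens E = Cc := by
      rw [hCc, add_mul, smul_mul_assoc, hae, hbe]
    set γ : ℝ := ∑ y, ‖Cc y (fun _ => false)‖ ^ 2 with hγ
    have hγe : (γ : ℂ) = a + b + l * k + star l * star k := by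
      rw [hγ, ← gram_diag, hCC, Matrix.smul_apply, hE0]
      simp
    have hγ0 : 0 ≤ γ := by positivity
    refine ⟨γ, hγ0, hγe, ?_, trivial⟩
    set N : Op ι := Cc * Ccᴴ with hN
    have hNh : Nᴴ = N := by rw [hN, Matrix.conjTranspose_mul, Matrix.conjTranspose_conjTranspose]
    have hNN : N * N = (γ : ℂ) • N := by
      calc N * N = Cc * (Ccᴴ * Cc) * Ccᴴ := by rw [hN]; simp only [mul_assoc]
        _ = (γ : ℂ) • (Cc * tens E * Ccᴴ) := by
            rw [hCC, ← hγe, mul_smul_comm, smul_mul_assoc]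
        _ = (γ : ℂ) • N := by rw [hCE]
    choose x hx0 hx1 hx using fun s => diag_scaled N V γ hγ0 hNh hNN hV s
    simp only [hx]
    have h1 : (∑ s, (W s : ℂ) * ((x s : ℝ) : ℂ)) = ((∑ s, W s * x s : ℝ) : ℂ) := by push_cast; rfl
    rw [h1, Complex.ofReal_re]
    exact hW x γ hγ0 hx0 hx1
  -- conjugate symmetry
  have hcs : ∑ s, (W s : ℂ) * (Vᴴ * (tens B * (tens A)ᴴ) * V) s s = star c := by
    rw [hc, star_sum]
    apply Finset.sum_congr rfl
    intro s _
    rw [star_mul', RCLike.star_def, Complex.conj_ofReal]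
    congr 1
    have h1 : (Vᴴ * tens m * V)ᴴ = Vᴴ * (tens B * (tens A)ᴴ) * V := by
      rw [hm', Matrix.conjTranspose_mul, Matrix.conjTranspose_mul, Matrix.conjTranspose_mul,
        Matrix.conjTranspose_conjTranspose, Matrix.conjTranspose_conjTranspose]
      simp only [mul_assoc]
    rw [← h1, Matrix.conjTranspose_apply, RCLike.star_def]
  have hdiff : ∀ l : ℂ,
      (∑ s, (W s : ℂ) * (Vᴴ * ((tens A + l • tens B) * (tens A + l • tens B)ᴴ) * V) s s) -
      (∑ s, (W s : ℂ) * (Vᴴ * ((tens A + (-l) • tens B) * (tens A + (-l) • tens B)ᴴ) * V) s s) =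
      2 * (star l * c + l * star c) := by
    intro l
    rw [← hcs, hc, ← Finset.sum_sub_distrib, Finset.mul_sum, Finset.mul_sum,
      ← Finset.sum_add_distrib, Finset.mul_sum]
    apply Finset.sum_congr rfl
    intro s _
    rw [← mul_sub, ← Matrix.sub_apply, ← sub_mul, ← mul_sub]
    have h1 : (tens A + l • tens B) * (tens A + l • tens B)ᴴ -
        (tens A + (-l) • tens B) * (tens A + (-l) • tens B)ᴴ =
        (2 * star l) • (tens m) + (2 * l) • (tens B * (tens A)ᴴ) := by
      have hexp : ∀ t : ℂ, (tens A + t • tens B) * (tens A + t • tens B)ᴴ =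
          tens A * (tens A)ᴴ + star t • (tens A * (tens B)ᴴ) +
            (t • (tens B * (tens A)ᴴ) + (t * star t) • (tens B * (tens B)ᴴ)) := by
        intro t
        rw [Matrix.conjTranspose_add, Matrix.conjTranspose_smul, add_mul, mul_add, mul_add,
          mul_smul_comm, smul_mul_assoc, smul_mul_assoc, mul_smul_comm, smul_smul]
      rw [hm', hexp, hexp, star_neg, neg_mul_neg, neg_smul, neg_smul, two_mul, two_mul, add_smul,
        add_smul]
      abel
    rw [h1, mul_add, add_mul, Matrix.add_apply, mul_smul_comm, smul_mul_assoc, mul_smul_comm,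
      smul_mul_assoc, Matrix.smul_apply, Matrix.smul_apply]
    simp only [smul_eq_mul]
    ring
  by_cases hc0 : c = 0
  · rw [hc0, norm_zero]; exact hκ₀
  set l : ℂ := c / (‖c‖ : ℂ) with hl
  have hcn : (‖c‖ : ℂ) ≠ 0 := by exact_mod_cast (norm_ne_zero_iff.2 hc0)
  have hstar : star c * c = (‖c‖ : ℂ) ^ 2 := by
    rw [RCLike.star_def, mul_comm, Complex.mul_conj, Complex.normSq_eq_norm_sq]; push_cast; rfl
  have hsl : star l = star c / (‖c‖ : ℂ) := by
    rw [hl, star_div₀]
    congr 1
    rw [RCLike.star_def, Complex.conj_ofReal]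
  have hl1 : star l * l = 1 := by
    rw [hsl, hl, div_mul_div_comm, hstar]
    field_simp
  have hl2 : star (-l) * (-l) = 1 := by rw [star_neg, neg_mul_neg]; exact hl1
  obtain ⟨γ₁, h10, h11, h12, -⟩ := step l hl1
  obtain ⟨γ₂, h20, h21, h22, -⟩ := step (-l) hl2
  have hsum : γ₁ + γ₂ ≤ 4 := by
    have : ((γ₁ + γ₂ : ℝ) : ℂ) = ((2 * (a + b) : ℝ) : ℂ) := by
      push_cast
      rw [h11, h21, star_neg]; ring
    have h := Complex.ofReal_injective this
    rw [h]; linarith
  have hd := hdiff l
  have hval : 2 * (star l * c + l * star c) = ((4 * ‖c‖ : ℝ) : ℂ) := by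
    rw [hsl, hl]
    have h1 : star c / (‖c‖ : ℂ) * c = (‖c‖ : ℂ) := by
      rw [div_mul_eq_mul_div, hstar]; field_simp
    have h2 : c / (‖c‖ : ℂ) * star c = (‖c‖ : ℂ) := by
      rw [div_mul_eq_mul_div, mul_comm c, hstar]; field_simp
    rw [h1, h2]; push_cast; ring
  rw [hval] at hd
  have hre := congrArg Complex.re hd
  rw [Complex.sub_re, Complex.ofReal_re] at hre
  have h3 := abs_le.1 h12
  have h4 := abs_le.1 h22
  nlinarith

theorem cg_bound' (I : Finset ι) (u : ι → M2) (hu : ∀ i, u i ∈ unitary M2) (m : ι → M2) (g : Tof ι)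
    (hm : ∀ i ∈ g.supp, Good (m i)) :
    ‖cg (rr I u) m g‖ ≤ if (g.supp ∩ I).Nonempty then 1 / 2 else 1 := by
  classical
  set u' : ι → M2 := fun i => if i ∈ g.supp then u i else 1 with hu'
  set d' : ι → Bool → ℂ := fun i => if i ∈ g.supp then dd I i else dA with hd'
  set m' : ι → M2 := fun i => if i ∈ g.supp then m i else 1 with hm'
  set ρ' : ι → M2 := fun i => u' i * Matrix.diagonal (d' i) * (u' i)ᴴ with hρ'
  have hcg : cg (rr I u) m g = cg ρ' m' g := by
    apply cg_congr
    intro i hi
    simp [hρ', hu', hd', hm', hi, rr]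
  have hu'u : ∀ i, u' i ∈ unitary M2 := by
    intro i
    simp only [hu']
    split_ifs
    · exact hu i
    · exact one_mem _
  have h1 := trace_conjL ρ' [g] m' (List.pairwise_singleton _ _)
  have h2 : ∏ i ∈ (usup [g])ᶜ, (ρ' i * m' i).trace = 1 := by
    apply Finset.prod_eq_one
    intro i hi
    simp only [usup, Finset.union_empty, Finset.mem_compl] at hi
    simp only [hρ', hu', hd', hm', hi, if_false]
    simp [Matrix.trace, Matrix.diag, dA]
  rw [h2, mul_one] at h1
  simp only [List.map_cons, List.map_nil, List.prod_cons, List.prod_nil, mul_one, conjL] at h1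
  rw [hcg, ← h1, hρ', tens_rr, trace_weighted]
  set V : Op ι := g.op * tens u' with hVdef
  have hV : Vᴴ * V = 1 := by
    rw [hVdef, Matrix.conjTranspose_mul, g.op_herm]
    calc (tens u')ᴴ * g.op * (g.op * tens u') = (tens u')ᴴ * (g.op * g.op) * tens u' := by
          simp only [mul_assoc]
      _ = 1 := by rw [g.op_sq, mul_one, tens_unitary u' hu'u]
  have hR : (tens u')ᴴ * (g.op * tens m' * g.op) * tens u' = Vᴴ * tens m' * V := by
    rw [hVdef, Matrix.conjTranspose_mul, g.op_herm]
    simp only [mul_assoc]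
  rw [hR]
  have hgood : ∀ i, Good (m' i) := by
    intro i
    simp only [hm']
    split_ifs with hi
    · exact hm i hi
    · exact Or.inl rfl
  -- real weights
  set dr : ι → Bool → ℝ := fun i b =>
    if i ∈ g.supp then (if i ∈ I then (if b = true then -1 / 2 else 1 / 2)
      else (if b = true then 0 else 1)) else (if b = true then 0 else 1) with hdr
  have hdd : ∀ i b, d' i b = (dr i b : ℂ) := by
    intro i b
    simp only [hd', hdr, dd]
    split_ifs <;> simp_all [dI, dA]
  have hWr : ∀ s : ι → Bool, (∏ i, d' i (s i)) = ((∏ i, dr i (s i) : ℝ) : ℂ) := by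
    intro s
    push_cast
    exact Finset.prod_congr rfl fun i _ => hdd i (s i)
  simp only [hWr]
  have habs : ∑ s : ι → Bool, |∏ i, dr i (s i)| = 1 := by
    simp only [Finset.abs_prod]
    have h := Finset.prod_univ_sum (fun _ : ι => (Finset.univ : Finset Bool))
      (fun i b => |dr i b|)
    rw [Fintype.piFinset_univ] at h
    rw [← h]
    apply Finset.prod_eq_one
    intro i _
    simp only [hdr, Fintype.sum_bool]
    split_ifs <;> norm_num at * <;> simp_all
  apply weighted_good _ _ _ _ m' hgood V hV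
  · intro x γ hγ hx0 hx1
    split_ifs with hI
    · have hzero : ∑ s : ι → Bool, ∏ i, dr i (s i) = 0 := by
        have h := Finset.prod_univ_sum (fun _ : ι => (Finset.univ : Finset Bool))
          (fun i b => dr i b)
        rw [Fintype.piFinset_univ] at h
        rw [← h]
        obtain ⟨i, hi⟩ := hI
        rw [Finset.mem_inter] at hi
        apply Finset.prod_eq_zero (Finset.mem_univ i)
        simp only [hdr, Fintype.sum_bool, hi.1, hi.2, if_true]
        norm_num
      have hsub : ∑ s : ι → Bool, (∏ i, dr i (s i)) * x s =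
          ∑ s : ι → Bool, (∏ i, dr i (s i)) * (x s - γ / 2) := by
        simp only [mul_sub, Finset.sum_sub_distrib, ← Finset.sum_mul, hzero]
        simp
      rw [hsub]
      calc _ ≤ ∑ s : ι → Bool, |(∏ i, dr i (s i)) * (x s - γ / 2)| :=
            Finset.abs_sum_le_sum_abs _ _
        _ ≤ ∑ s : ι → Bool, |∏ i, dr i (s i)| * (γ / 2) := by
            apply Finset.sum_le_sum
            intro s _
            rw [abs_mul]
            apply mul_le_mul_of_nonneg_left _ (abs_nonneg _)
            rw [abs_le]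
            constructor
            · linarith [hx0 s]
            · linarith [hx1 s]
        _ = 1 / 2 * γ := by rw [← Finset.sum_mul, habs]; ring
    · calc _ ≤ ∑ s : ι → Bool, |(∏ i, dr i (s i)) * x s| := Finset.abs_sum_le_sum_abs _ _
        _ ≤ ∑ s : ι → Bool, |∏ i, dr i (s i)| * γ := by
            apply Finset.sum_le_sum
            intro s _
            rw [abs_mul, abs_of_nonneg (hx0 s)]
            exact mul_le_mul_of_nonneg_left (hx1 s) (abs_nonneg _)
        _ = 1 * γ := by rw [← Finset.sum_mul, habs]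
  · split_ifs <;> norm_num

end Vale.Agent.P368
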