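import Vale.Agent.P368.Fac

/-!
# P368: one-qubit estimates
-/

namespace Vale.Agent.P368

open Matrix

/-- squared norm of a one-qubit vector -/
noncomputable def nrm (a : Bool → ℂ) : ℝ := ‖a false‖ ^ 2 + ‖a true‖ ^ 2

theorem nrm_nonneg (a : Bool → ℂ) : 0 ≤ nrm a := by unfold nrm; positivity

/-- rank-one operators of norm at most one -/
def R1 (X : M2) : Prop :=
  ∃ a b : Bool → ℂ, nrm a ≤ 1 ∧ nrm b ≤ 1 ∧ X = Matrix.vecMulVec a (fun x => star (b x))

/-- contractions -/
def Con (X : M2) : Prop := ∀ v : Bool → ℂ, nrm (X *ᵥ v) ≤ nrm v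

/-- identity or rank-one contraction -/
def Good (X : M2) : Prop := X = 1 ∨ R1 X

theorem cs2 (a b c d : ℝ) : (a * c + b * d) ^ 2 ≤ (a ^ 2 + b ^ 2) * (c ^ 2 + d ^ 2) := by
  nlinarith [sq_nonneg (a * d - b * c)]

theorem inner_le (b c : Bool → ℂ) : ‖star (b false) * c false + star (b true) * c true‖ ^ 2 ≤
    nrm b * nrm c := by
  have h1 : ‖star (b false) * c false + star (b true) * c true‖ ≤
      ‖b false‖ * ‖c false‖ + ‖b true‖ * ‖c true‖ := by
    refine (norm_add_le _ _).trans (le_of_eq ?_)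
    rw [norm_mul, norm_mul, norm_star, norm_star]
  calc _ ≤ (‖b false‖ * ‖c false‖ + ‖b true‖ * ‖c true‖) ^ 2 :=
        pow_le_pow_left₀ (norm_nonneg _) h1 2
    _ ≤ _ := cs2 _ _ _ _

theorem nrm_smul (s : ℂ) (a : Bool → ℂ) : nrm (fun y => s * a y) = ‖s‖ ^ 2 * nrm a := by
  unfold nrm
  simp only [norm_mul]
  ring

theorem R1.mul {X Y : M2} (hX : R1 X) (hY : R1 Y) : R1 (X * Y) := by
  obtain ⟨a, b, ha, hb, rfl⟩ := hX
  obtain ⟨c, d, hc, hd, rfl⟩ := hY
  refine ⟨fun y => (star (b false) * c false + star (b true) * c true) * a y, d, ?_, hd, ?_⟩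
  · rw [nrm_smul]
    have h := inner_le b c
    have h0 := nrm_nonneg a
    have h1 := nrm_nonneg b
    have h2 := nrm_nonneg c
    have h3 : nrm b * nrm c ≤ 1 := by nlinarith
    nlinarith [sq_nonneg ‖star (b false) * c false + star (b true) * c true‖]
  · ext y x
    simp only [Matrix.mul_apply, Fintype.sum_bool, Matrix.vecMulVec_apply]
    ring

theorem R1.con {X : M2} (hX : R1 X) : Con X := by
  obtain ⟨a, b, ha, hb, rfl⟩ := hX
  intro v
  have h : (Matrix.vecMulVec a (fun x => star (b x)) *ᵥ v) =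
      fun y => (star (b false) * v false + star (b true) * v true) * a y := by
    funext y
    simp only [Matrix.mulVec, dotProduct, Fintype.sum_bool, Matrix.vecMulVec_apply]
    ring
  rw [h, nrm_smul]
  have h1 := inner_le b v
  have h2 := nrm_nonneg a
  have h3 := nrm_nonneg b
  have h4 := nrm_nonneg v
  have h5 : nrm b * nrm v ≤ nrm v := by nlinarith
  have h6 : ‖star (b false) * v false + star (b true) * v true‖ ^ 2 ≤ nrm v := h1.trans h5
  calc _ ≤ ‖star (b false) * v false + star (b true) * v true‖ ^ 2 * 1 := by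
        apply mul_le_mul_of_nonneg_left ha (by positivity)
    _ ≤ nrm v := by rw [mul_one]; exact h6

theorem con_one : Con 1 := fun v => by rw [Matrix.one_mulVec]

theorem Con.mul {X Y : M2} (hX : Con X) (hY : Con Y) : Con (X * Y) := fun v => by
  rw [← Matrix.mulVec_mulVec]
  exact (hX _).trans (hY v)

theorem Good.con {X : M2} (h : Good X) : Con X := by
  rcases h with rfl | h
  · exact con_one
  · exact h.con

theorem Good.mul {X Y : M2} (hX : Good X) (hY : Good Y) : Good (X * Y) := by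
  rcases hX with rfl | hX
  · rwa [one_mul]
  · rcases hY with rfl | hY
    · rw [mul_one]; exact Or.inr hX
    · exact Or.inr (hX.mul hY)

theorem con_mul_R1 {X Y : M2} (hX : Con X) (hY : R1 Y) : R1 (X * Y) := by
  obtain ⟨a, b, ha, hb, rfl⟩ := hY
  refine ⟨X *ᵥ a, b, (hX a).trans ha, hb, ?_⟩
  ext y x
  simp only [Matrix.mul_apply, Matrix.mulVec, dotProduct, Fintype.sum_bool, Matrix.vecMulVec_apply]
  ring

theorem R1_mul_con {X Y : M2} (hX : R1 X) (hY : Con Yᴴ) : R1 (X * Y) := by
  obtain ⟨a, b, ha, hb, rfl⟩ := hX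
  refine ⟨a, Yᴴ *ᵥ b, ha, (hY b).trans hb, ?_⟩
  ext y x
  simp only [Matrix.mul_apply, Matrix.mulVec, dotProduct, Fintype.sum_bool, Matrix.vecMulVec_apply,
    Matrix.conjTranspose_apply, star_add, star_mul, star_star]
  ring

theorem nrm_eq (v : Bool → ℂ) : ((nrm v : ℝ) : ℂ) = star v ⬝ᵥ v := by
  simp only [nrm, dotProduct, Fintype.sum_bool, Pi.star_apply, RCLike.star_def]
  rw [Complex.ofReal_add]
  have h : ∀ z : ℂ, (((‖z‖ ^ 2 : ℝ)) : ℂ) = (starRingEnd ℂ) z * z := by
    intro z
    rw [mul_comm, Complex.mul_conj, Complex.normSq_eq_norm_sq]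
  rw [h, h]
  ring

theorem con_unitary {u : M2} (hu : u ∈ unitary M2) : Con u := by
  intro v
  have h : ((nrm (u *ᵥ v) : ℝ) : ℂ) = ((nrm v : ℝ) : ℂ) := by
    rw [nrm_eq, nrm_eq, Matrix.star_mulVec, Matrix.dotProduct_mulVec, Matrix.vecMul_vecMul]
    have : uᴴ * u = 1 := (Unitary.mem_iff.1 hu).1
    rw [this, Matrix.vecMul_one]
  exact le_of_eq (Complex.ofReal_injective h)

theorem unitary_conj {u : M2} (hu : u ∈ unitary M2) : uᴴ ∈ unitary M2 := by
  rw [Unitary.mem_iff] at hu ⊢
  rw [← Matrix.star_eq_conjTranspose, star_star]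
  exact ⟨hu.2, hu.1⟩

theorem Good.conj {X u : M2} (hX : Good X) (hu : u ∈ unitary M2) : Good (uᴴ * X * u) := by
  rcases hX with rfl | hX
  · left
    rw [mul_one]
    exact (Unitary.mem_iff.1 hu).1
  · right
    exact R1_mul_con (con_mul_R1 (con_unitary (unitary_conj hu)) hX) (con_unitary (unitary_conj hu))

theorem R1_qc : R1 qc := by
  refine ⟨fun y => if y = true then 1 else 0, fun y => if y = true then 1 else 0, ?_, ?_, ?_⟩
  · simp [nrm]
  · simp [nrm]
  · ext y x; cases y <;> cases x <;> simp [qc, Matrix.vecMulVec_apply]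

theorem exists_s : ∃ s : ℂ, s * s = 1 / 2 ∧ star s = s ∧ ‖s‖ ^ 2 = 1 / 2 := by
  refine ⟨(Real.sqrt (1 / 2) : ℝ), ?_, ?_, ?_⟩
  · rw [← Complex.ofReal_mul, Real.mul_self_sqrt (by norm_num)]; norm_num
  · rw [RCLike.star_def, Complex.conj_ofReal]
  · rw [Complex.norm_real, Real.norm_eq_abs, sq_abs, Real.sq_sqrt (by norm_num)]

theorem R1_qm : R1 qm := by
  obtain ⟨s, h1, h2, h3⟩ := exists_s
  refine ⟨fun y => if y = true then -s else s, fun y => if y = true then -s else s, ?_, ?_, ?_⟩
  · simp only [nrm, if_true, Bool.false_eq_true, if_false, norm_neg, h3]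
    norm_num
  · simp only [nrm, if_true, Bool.false_eq_true, if_false, norm_neg, h3]
    norm_num
  · ext y x
    cases y <;> cases x <;> simp only [qm, Matrix.vecMulVec_apply, if_true, Bool.false_eq_true,
      if_false, star_neg, h2, reduceCtorEq, neg_mul, mul_neg, neg_neg, h1]
    all_goals norm_num

theorem Tof.q_good {ι : Type} [DecidableEq ι] (g : Tof ι) (i : ι) : Good (g.q i) := by
  unfold Tof.q
  split_ifs
  · exact Or.inr R1_qm
  · exact Or.inr R1_qc
  · exact Or.inl rfl

theorem wd_good {q m : M2} (hq : Good q) (hm : Good m) (k : Fin 4) : Good (wd q m k) := by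
  fin_cases k
  · exact hm
  · exact hq.mul hm
  · exact hm.mul hq
  · exact (hq.mul hm).mul hq

theorem wd_con {q m : M2} (hq : Con q) (hm : Con m) (k : Fin 4) : Con (wd q m k) := by
  fin_cases k
  · exact hm
  · exact hq.mul hm
  · exact hm.mul hq
  · exact (hq.mul hm).mul hq

theorem Con.entry {X : M2} (h : Con X) (k : Bool) : ‖X k k‖ ≤ 1 := by
  have h1 := h (fun x => if x = k then 1 else 0)
  have h2 : ∀ y, (X *ᵥ fun x => if x = k then (1 : ℂ) else 0) y = X y k := by
    intro y
    simp [Matrix.mulVec, dotProduct]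
  unfold nrm at h1
  rw [h2, h2] at h1
  cases k <;> simp at h1
  · nlinarith [sq_nonneg ‖X true false‖, norm_nonneg (X false false)]
  · nlinarith [sq_nonneg ‖X false true‖, norm_nonneg (X true true)]

/-- local weight: inputs -/
noncomputable def dI : Bool → ℂ := fun b => if b = true then -1 / 2 else 1 / 2

/-- local weight: ancillas -/
noncomputable def dA : Bool → ℂ := fun b => if b = true then 0 else 1

theorem trace_rot (u X : M2) (d : Bool → ℂ) :
    (u * Matrix.diagonal d * uᴴ * X).trace = d false * (uᴴ * X * u) false false +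
      d true * (uᴴ * X * u) true true := by
  have h : (u * Matrix.diagonal d * uᴴ * X).trace = (Matrix.diagonal d * (uᴴ * X * u)).trace := by
    rw [mul_assoc, mul_assoc, Matrix.trace_mul_comm, mul_assoc]
  rw [h]
  simp only [Matrix.trace, Matrix.diag, Fintype.sum_bool, Matrix.diagonal_mul]
  ring

theorem tr_con_I {u X : M2} (hu : u ∈ unitary M2) (hX : Con X) :
    ‖(u * Matrix.diagonal dI * uᴴ * X).trace‖ ≤ 1 := by
  rw [trace_rot]
  have hY : Con (uᴴ * X * u) := ((con_unitary (unitary_conj hu)).mul hX).mul (con_unitary hu)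
  have h1 := hY.entry false
  have h2 := hY.entry true
  refine (norm_add_le _ _).trans ?_
  rw [norm_mul, norm_mul]
  simp only [dI, if_true, Bool.false_eq_true, if_false]
  norm_num
  linarith

theorem tr_con_A {u X : M2} (hu : u ∈ unitary M2) (hX : Con X) :
    ‖(u * Matrix.diagonal dA * uᴴ * X).trace‖ ≤ 1 := by
  rw [trace_rot]
  have hY : Con (uᴴ * X * u) := ((con_unitary (unitary_conj hu)).mul hX).mul (con_unitary hu)
  have h1 := hY.entry false
  simpa [dA] using h1

theorem tr_R1_I {u X : M2} (hu : u ∈ unitary M2) (hX : Good X) :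
    ‖(u * Matrix.diagonal dI * uᴴ * X).trace‖ ≤ 1 / 2 := by
  rw [trace_rot]
  rcases hX.conj hu with h | ⟨a, b, ha, hb, h⟩
  · rw [h]
    simp only [dI, Matrix.one_apply_eq, if_true, Bool.false_eq_true, if_false]
    norm_num
  · rw [h]
    refine (norm_add_le _ _).trans ?_
    simp only [Matrix.vecMulVec_apply, norm_mul, norm_star]
    simp only [dI, if_true, Bool.false_eq_true, if_false]
    norm_num
    unfold nrm at ha hb
    have h1 := cs2 ‖a false‖ ‖a true‖ ‖b false‖ ‖b true‖
    have h2 : ‖a false‖ * ‖b false‖ + ‖a true‖ * ‖b true‖ ≤ 1 := by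
      nlinarith [sq_nonneg (‖a false‖ - ‖b false‖), sq_nonneg (‖a true‖ - ‖b true‖)]
    linarith

end Vale.Agent.P368
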