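import Vale.Agent.P368.Fin

/-!
# P368: normal form and the final theorem
-/

namespace Vale.Agent.P368

open Matrix

variable {ι : Type} [DecidableEq ι] [Fintype ι]

/-- normal form with `k` layers of Toffoli gates -/
def NF : ℕ → Op ι → Prop
  | 0, X => ∃ u : ι → M2, (∀ i, u i ∈ unitary M2) ∧ X = tens u
  | (k + 1), X => ∃ (u : ι → M2) (L : List (Tof ι)) (Y : Op ι), (∀ i, u i ∈ unitary M2) ∧
      (L.Pairwise fun g h => Disjoint g.supp h.supp) ∧ NF k Y ∧ X = tens u * layer L * Y

theorem tens_mul_unitary {u v : ι → M2} (hu : ∀ i, u i ∈ unitary M2) (hv : ∀ i, v i ∈ unitary M2) :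
    ∀ i, u i * v i ∈ unitary M2 := fun i => mul_mem (hu i) (hv i)

theorem NF.tens_left {k : ℕ} {X : Op ι} (h : NF k X) (v : ι → M2) (hv : ∀ i, v i ∈ unitary M2) :
    NF k (tens v * X) := by
  cases k with
  | zero =>
    obtain ⟨u, hu, rfl⟩ := h
    exact ⟨fun i => v i * u i, tens_mul_unitary hv hu, tens_mul _ _⟩
  | succ k =>
    obtain ⟨u, L, Y, hu, hL, hY, rfl⟩ := h
    refine ⟨fun i => v i * u i, L, Y, tens_mul_unitary hv hu, hL, hY, ?_⟩
    rw [← tens_mul]; simp only [mul_assoc]

theorem NF.succ {k : ℕ} {X : Op ι} (h : NF k X) : NF (k + 1) X :=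
  ⟨fun _ => 1, [], X, fun _ => one_mem _, List.Pairwise.nil, h, by
    rw [tens_one]; simp [layer]⟩

theorem NF.mono {k l : ℕ} (hkl : k ≤ l) {X : Op ι} (h : NF k X) : NF l X := by
  induction hkl with
  | refl => exact h
  | step _ ih => exact ih.succ

/-- a one-site operator commutes with gates away from the site -/
theorem layer_comm (L : List (Tof ι)) (i : ι) (u : M2) (h : ∀ g ∈ L, i ∉ g.supp) :
    tens (Function.update (fun _ => 1) i u) * layer L =
      layer L * tens (Function.update (fun _ => 1) i u) := by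
  induction L with
  | nil => simp [layer]
  | cons g L ih =>
    have ih' := ih fun g' hg' => h g' (by simp [hg'])
    have hg := h g (by simp)
    have hc : tens (Function.update (fun _ => 1) i u) * g.op =
        g.op * tens (Function.update (fun _ => 1) i u) := by
      rw [Tof.op_eq, sub_mul, mul_sub, one_mul, mul_one, smul_mul_assoc, mul_smul_comm, tens_mul,
        tens_mul]
      congr 3
      funext j
      by_cases hj : j = i
      · rw [hj, g.q_notMem hg, mul_one, one_mul]
      · rw [Function.update_of_ne hj, mul_one, one_mul]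
    unfold layer at ih' ⊢
    rw [List.map_cons, List.prod_cons, ← mul_assoc, hc, mul_assoc, ih', ← mul_assoc]

/-- a layer in normal form -/
theorem layerOp_nf (l : List (Gate ι)) (hl : l.Pairwise fun g h => Disjoint g.supp h.supp) :
    ∃ (L : List (Tof ι)) (u : ι → M2), (L.Pairwise fun g h => Disjoint g.supp h.supp) ∧
      (∀ i, u i ∈ unitary M2) ∧ (∀ g ∈ L, Gate.tof g ∈ l) ∧ layerOp l = layer L * tens u := by
  induction l with
  | nil => exact ⟨[], fun _ => 1, List.Pairwise.nil, fun _ => one_mem _, by simp, by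
      rw [tens_one]; simp [layerOp, layer]⟩
  | cons g l ih =>
    rw [List.pairwise_cons] at hl
    obtain ⟨hg, hl⟩ := hl
    obtain ⟨L, u, hL, hu, hmem, heq⟩ := ih hl
    have hop : layerOp (g :: l) = g.op * layerOp l := by simp [layerOp]
    cases g with
    | one i v hv =>
      refine ⟨L, fun j => Function.update (fun _ => (1 : M2)) i v j * u j, hL, ?_, ?_, ?_⟩
      · intro j
        dsimp only
        by_cases hj : j = i
        · subst hj; rw [Function.update_self]; exact mul_mem hv (hu _)
        · rw [Function.update_of_ne hj, one_mul]; exact hu j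
      · intro g hg'; exact List.mem_cons_of_mem _ (hmem g hg')
      · rw [hop, heq, ← tens_mul]
        have hc := layer_comm L i v (fun g' hg' => by
          have := hg _ (hmem g' hg')
          simpa [Gate.supp] using this)
        simp only [Gate.op]
        rw [← mul_assoc, hc, mul_assoc]
    | tof g =>
      refine ⟨g :: L, u, ?_, hu, ?_, ?_⟩
      · rw [List.pairwise_cons]
        exact ⟨fun g' hg' => hg _ (hmem g' hg'), hL⟩
      · intro g' hg'
        rcases List.mem_cons.1 hg' with rfl | h
        · exact List.mem_cons_self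
        · exact List.mem_cons_of_mem _ (hmem g' h)
      · rw [hop, heq]
        simp [Gate.op, layer, mul_assoc]

theorem circOp_nf (C : List (List (Gate ι))) (hC : IsCircuit C) : NF (entDepth C) (circOp C) := by
  induction C with
  | nil => exact ⟨fun _ => 1, fun _ => one_mem _, by rw [tens_one]; simp [circOp]⟩
  | cons l C ih =>
    have ih' := ih fun l' hl' => hC l' (List.mem_cons_of_mem _ hl')
    obtain ⟨L, u, hL, hu, hmem, heq⟩ := layerOp_nf l (hC l List.mem_cons_self)
    have hop : circOp (l :: C) = layerOp l * circOp C := by simp [circOp]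
    rw [hop, heq, mul_assoc]
    have hT := ih'.tens_left u hu
    unfold entDepth at *
    rw [List.countP_cons]
    by_cases hany : l.any Gate.multi = true
    · rw [if_pos hany]
      refine ⟨fun _ => 1, L, tens u * circOp C, fun _ => one_mem _, hL, hT, ?_⟩
      rw [tens_one, one_mul]
    · rw [if_neg hany, add_zero]
      have hLnil : L = [] := by
        rcases L with _ | ⟨g, L⟩
        · rfl
        · exfalso
          apply hany
          rw [List.any_eq_true]
          exact ⟨_, hmem g List.mem_cons_self, rfl⟩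
      subst hLnil
      simpa [layer] using hT

theorem nf_two {X : Op ι} (h : NF 2 X) : ∃ C : Circ2 ι, X = C.op := by
  obtain ⟨u₂, L₂, Y, hu₂, hL₂, ⟨u₁, L₁, Z, hu₁, hL₁, ⟨u₀, hu₀, rfl⟩, rfl⟩, rfl⟩ := h
  refine ⟨⟨u₀, u₁, u₂, hu₀, hu₁, hu₂, L₁, L₂, hL₁, hL₂⟩, ?_⟩
  simp only [Circ2.op, mul_assoc]

theorem layer_unitary (L : List (Tof ι)) : (layer L)ᴴ * layer L = 1 := by
  have h := conjL_eq L (1 : Op ι)
  rw [mul_one] at h
  rw [← h]
  have h1 : (1 : Op ι) = tens (fun _ => 1) := tens_one.symm
  rw [h1]
  exact conjL_away L _ (fun _ _ _ _ => rfl)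

theorem Circ2.op_unitary (C : Circ2 ι) : (C.op)ᴴ * C.op = 1 := by
  unfold Circ2.op
  simp only [Matrix.conjTranspose_mul, mul_assoc]
  have key : ∀ (A B : Op ι), Aᴴ * A = 1 → Aᴴ * (A * B) = B := fun A B h => by
    rw [← mul_assoc, h, one_mul]
  rw [key _ _ (tens_unitary _ C.hu₂), key _ _ (layer_unitary _), key _ _ (tens_unitary _ C.hu₁),
    key _ _ (layer_unitary _), tens_unitary _ C.hu₀]

theorem prob_add (U : Op ι) (hU : Uᴴ * U = 1) (o : ι) (b : Bool) (s : ι → Bool) :
    prob U o b s + prob U o (!b) s = 1 := by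
  have h := gram_diag U s
  rw [hU, Matrix.one_apply_eq] at h
  have h' : (1 : ℝ) = ∑ y, ‖U y s‖ ^ 2 := by exact_mod_cast h
  rw [h']
  unfold prob
  rw [← Finset.sum_add_distrib]
  apply Finset.sum_congr rfl
  intro y _
  cases b <;> cases y o <;> simp

theorem card_inputs (I : Finset ι) : (inputs I).card = 2 ^ I.card := by
  have h1 := Fintype.card_fun (α := I) (β := Bool)
  rw [Fintype.card_bool, Fintype.card_coe] at h1
  rw [← h1]
  refine Finset.card_bij' (s := inputs I) (t := (Finset.univ : Finset (I → Bool)))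
    (fun s _ i => s i) (fun f _ i => if h : i ∈ I then f ⟨i, h⟩ else false) ?_ ?_ ?_ ?_
  · intro s _; exact Finset.mem_univ _
  · intro f _
    simp only [inputs, Finset.mem_filter, Finset.mem_univ, true_and]
    intro i hi; simp [hi]
  · intro s hs
    simp only [inputs, Finset.mem_filter, Finset.mem_univ, true_and] at hs
    funext i
    by_cases hi : i ∈ I
    · simp [hi]
    · simp [hi, hs i hi]
  · intro f _
    funext i
    simp

theorem final (I : Finset ι) (o : ι) (C : List (List (Gate ι))) (hC : IsCircuit C)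
    (hd : entDepth C ≤ 2) :
    |corr I (circOp C) o| ≤ 100 * (2 : ℝ) ^ (-(I.card : ℝ) / 4) ∧
    ∀ ε : ℝ, (∀ s ∈ inputs I, 1 / 2 + ε ≤ prob (circOp C) o (par s) s) →
      ε ≤ 50 * (2 : ℝ) ^ (-(I.card : ℝ) / 4) := by
  obtain ⟨C', hC'⟩ := nf_two ((circOp_nf C hC).mono hd)
  rw [hC']
  have hb := corr_bound I C' o
  refine ⟨hb, fun ε hε => ?_⟩
  have h2 : 2 * ε ≤ corr I C'.op o := by
    unfold corr
    rw [le_div_iff₀ (by positivity)]
    have h3 : ∑ s ∈ inputs I, (2 * ε) ≤
        ∑ s ∈ inputs I, (prob C'.op o (par s) s - prob C'.op o (!par s) s) := by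
      apply Finset.sum_le_sum
      intro s hs
      have h4 := hε s hs
      have h5 := prob_add C'.op C'.op_unitary o (par s) s
      linarith
    rw [Finset.sum_const, card_inputs, nsmul_eq_mul] at h3
    push_cast at h3
    linarith
  have h6 := le_abs_self (corr I C'.op o)
  linarith

end Vale.Agent.P368
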