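import Vale.Agent.P368.Loc

/-!
# P368: a gate met by an input qubit halves the trace
-/

namespace Vale.Agent.P368

open Matrix

variable {ι : Type} [DecidableEq ι] [Fintype ι]

omit [DecidableEq ι] [Fintype ι] in
theorem gram_diag {κ : Type} [Fintype κ] (A : Matrix κ κ ℂ) (s : κ) :
    (Aᴴ * A) s s = ((∑ y, ‖A y s‖ ^ 2 : ℝ) : ℂ) := by
  simp only [Matrix.mul_apply, Matrix.conjTranspose_apply]
  push_cast
  apply Finset.sum_congr rfl
  intro y _
  rw [RCLike.star_def, mul_comm, Complex.mul_conj, Complex.normSq_eq_norm_sq]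
  push_cast
  rfl

omit [DecidableEq ι] [Fintype ι] in
theorem diag_mem {κ : Type} [Fintype κ] [DecidableEq κ] (P V : Matrix κ κ ℂ) (hP : Pᴴ = P)
    (hPP : P * P = P) (hV : Vᴴ * V = 1) (s : κ) :
    ∃ r : ℝ, 0 ≤ r ∧ r ≤ 1 ∧ (Vᴴ * P * V) s s = (r : ℂ) := by
  have key : ∀ Q : Matrix κ κ ℂ, Qᴴ = Q → Q * Q = Q → Vᴴ * Q * V = (Q * V)ᴴ * (Q * V) := by
    intro Q h1 h2
    rw [Matrix.conjTranspose_mul, h1]
    calc Vᴴ * Q * V = Vᴴ * (Q * Q) * V := by rw [h2]
      _ = Vᴴ * Q * (Q * V) := by simp only [mul_assoc]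
  refine ⟨∑ y, ‖(P * V) y s‖ ^ 2, by positivity, ?_, ?_⟩
  · have h1 : (1 - P)ᴴ = 1 - P := by rw [Matrix.conjTranspose_sub, hP, Matrix.conjTranspose_one]
    have h2 : (1 - P) * (1 - P) = 1 - P := by
      simp [sub_mul, mul_sub, hPP]
    have h3 := key (1 - P) h1 h2
    have h4 := key P hP hPP
    have h5 : (Vᴴ * (1 - P) * V) s s + (Vᴴ * P * V) s s = 1 := by
      rw [← Matrix.add_apply, mul_sub, sub_mul, mul_one, hV]
      simp
    rw [h3, h4, gram_diag, gram_diag] at h5
    have h6 : (∑ y, ‖((1 - P) * V) y s‖ ^ 2 : ℝ) + ∑ y, ‖(P * V) y s‖ ^ 2 = 1 := by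
      exact_mod_cast h5
    have h7 : (0 : ℝ) ≤ ∑ y, ‖((1 - P) * V) y s‖ ^ 2 := by positivity
    linarith
  · rw [key P hP hPP, gram_diag]

omit [DecidableEq ι] in
theorem tens_diagonal (d : ι → Bool → ℂ) : tens (fun i => Matrix.diagonal (d i)) =
    Matrix.diagonal (fun s : ι → Bool => ∏ i, d i (s i)) := by
  classical
  ext y x
  simp only [tens, Matrix.diagonal_apply]
  by_cases h : y = x
  · subst h; simp
  · rw [if_neg h]
    obtain ⟨i, hi⟩ := Function.ne_iff.1 h
    exact Finset.prod_eq_zero (Finset.mem_univ i) (by simp [hi])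

/-- local weight of a qubit -/
noncomputable def dd (I : Finset ι) (i : ι) : Bool → ℂ := if i ∈ I then dI else dA

/-- rotated local weight -/
noncomputable def rr (I : Finset ι) (u : ι → M2) (i : ι) : M2 :=
  u i * Matrix.diagonal (dd I i) * (u i)ᴴ

theorem tens_rr (d : ι → Bool → ℂ) (u : ι → M2) :
    tens (fun i => u i * Matrix.diagonal (d i) * (u i)ᴴ) =
      tens u * Matrix.diagonal (fun s : ι → Bool => ∏ i, d i (s i)) * (tens u)ᴴ := by
  rw [← tens_diagonal, tens_conj, tens_mul, tens_mul]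

theorem tens_unitary (u : ι → M2) (hu : ∀ i, u i ∈ unitary M2) : (tens u)ᴴ * tens u = 1 := by
  rw [tens_conj, tens_mul]
  have : ∀ i, (u i)ᴴ * u i = 1 := fun i => (Unitary.mem_iff.1 (hu i)).1
  simp only [this]
  exact tens_one

theorem trace_weighted (D : (ι → Bool) → ℂ) (T R : Op ι) :
    (T * Matrix.diagonal D * Tᴴ * R).trace = ∑ s, D s * (Tᴴ * R * T) s s := by
  have h : (T * Matrix.diagonal D * Tᴴ * R).trace = (Matrix.diagonal D * (Tᴴ * R * T)).trace := by
    rw [mul_assoc, mul_assoc, Matrix.trace_mul_comm, mul_assoc]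
  rw [h]
  simp only [Matrix.trace, Matrix.diag, Matrix.diagonal_mul]

theorem cg_bound (I : Finset ι) (u : ι → M2) (hu : ∀ i, u i ∈ unitary M2) (m : ι → M2) (g : Tof ι)
    (hm : ∀ i ∈ g.supp, (m i)ᴴ = m i ∧ m i * m i = m i) :
    ‖cg (rr I u) m g‖ ≤ if (g.supp ∩ I).Nonempty then 1 / 2 else 1 := by
  classical
  set u' : ι → M2 := fun i => if i ∈ g.supp then u i else 1 with hu'
  set d' : ι → Bool → ℂ := fun i => if i ∈ g.supp then dd I i else dA with hd'
  set m' : ι → M2 := fun i => if i ∈ g.supp then m i else 1 with hm'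
  set ρ' : ι → M2 := fun i => u' i * Matrix.diagonal (d' i) * (u' i)ᴴ with hρ'
  have hcg : cg (rr I u) m g = cg ρ' m' g := by
    apply cg_congr
    intro i hi
    simp [hρ', hu', hd', hm', hi, rr]
  have hu'u : ∀ i, u' i ∈ unitary M2 := by
    intro i
    simp only [hu']
    split_ifs
    · exact hu i
    · exact one_mem _
  have h1 := trace_conjL ρ' [g] m' (List.pairwise_singleton _ _)
  have h2 : ∏ i ∈ (usup [g])ᶜ, (ρ' i * m' i).trace = 1 := by
    apply Finset.prod_eq_one
    intro i hi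
    simp only [usup, Finset.union_empty, Finset.mem_compl] at hi
    simp only [hρ', hu', hd', hm', hi, if_false]
    simp [Matrix.trace, Matrix.diag, dA]
  rw [h2, mul_one] at h1
  simp only [List.map_cons, List.map_nil, List.prod_cons, List.prod_nil, mul_one, conjL] at h1
  rw [hcg, ← h1, hρ', tens_rr, trace_weighted]
  set P : Op ι := tens m' with hPdef
  set V : Op ι := g.op * tens u' with hVdef
  have hP : Pᴴ = P := by
    rw [hPdef, tens_conj]
    congr 1
    funext i
    simp only [hm']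
    split_ifs with hi
    · exact (hm i hi).1
    · simp
  have hPP : P * P = P := by
    rw [hPdef, tens_mul]
    congr 1
    funext i
    simp only [hm']
    split_ifs with hi
    · exact (hm i hi).2
    · simp
  have hV : Vᴴ * V = 1 := by
    rw [hVdef, Matrix.conjTranspose_mul, g.op_herm]
    calc (tens u')ᴴ * g.op * (g.op * tens u') = (tens u')ᴴ * (g.op * g.op) * tens u' := by
          simp only [mul_assoc]
      _ = 1 := by rw [g.op_sq, mul_one, tens_unitary u' hu'u]
  have hR : (tens u')ᴴ * (g.op * P * g.op) * tens u' = Vᴴ * P * V := by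
    rw [hVdef, Matrix.conjTranspose_mul, g.op_herm]
    simp only [mul_assoc]
  rw [hR]
  choose r hr0 hr1 hr using fun s => diag_mem P V hP hPP hV s
  simp only [hr]
  have habs : ∑ s : ι → Bool, ‖∏ i, d' i (s i)‖ = 1 := by
    have : ∀ s : ι → Bool, ‖∏ i, d' i (s i)‖ = ∏ i, ‖d' i (s i)‖ := fun s => by
      rw [norm_prod]
    simp only [this]
    have h := Finset.prod_univ_sum (fun _ : ι => (Finset.univ : Finset Bool))
      (fun i b => ‖d' i b‖)
    rw [Fintype.piFinset_univ] at h
    rw [← h]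
    apply Finset.prod_eq_one
    intro i _
    simp only [hd', dd, Fintype.sum_bool]
    split_ifs <;> simp [dI, dA] <;> norm_num
  split_ifs with hI
  · have hzero : ∑ s : ι → Bool, ∏ i, d' i (s i) = 0 := by
      have h := Finset.prod_univ_sum (fun _ : ι => (Finset.univ : Finset Bool))
        (fun i b => d' i b)
      rw [Fintype.piFinset_univ] at h
      rw [← h]
      obtain ⟨i, hi⟩ := hI
      rw [Finset.mem_inter] at hi
      apply Finset.prod_eq_zero (Finset.mem_univ i)
      simp only [hd', dd, Fintype.sum_bool, hi.1, hi.2, if_true]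
      simp [dI]
      norm_num
    have hsub : ∑ s : ι → Bool, (∏ i, d' i (s i)) * (r s : ℂ) =
        ∑ s : ι → Bool, (∏ i, d' i (s i)) * ((r s - 1 / 2 : ℝ) : ℂ) := by
      have : ∀ s : ι → Bool, (∏ i, d' i (s i)) * ((r s - 1 / 2 : ℝ) : ℂ) =
          (∏ i, d' i (s i)) * (r s : ℂ) - (∏ i, d' i (s i)) * (1 / 2) := by
        intro s; push_cast; ring
      simp only [this, Finset.sum_sub_distrib, ← Finset.sum_mul, hzero]
      simp
    rw [hsub]
    calc _ ≤ ∑ s : ι → Bool, ‖(∏ i, d' i (s i)) * ((r s - 1 / 2 : ℝ) : ℂ)‖ := norm_sum_le _ _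
      _ ≤ ∑ s : ι → Bool, ‖∏ i, d' i (s i)‖ * (1 / 2) := by
          apply Finset.sum_le_sum
          intro s _
          rw [norm_mul]
          apply mul_le_mul_of_nonneg_left _ (norm_nonneg _)
          rw [Complex.norm_real, Real.norm_eq_abs, abs_le]
          constructor
          · linarith [hr0 s]
          · linarith [hr1 s]
      _ = 1 / 2 := by rw [← Finset.sum_mul, habs, one_mul]
  · calc _ ≤ ∑ s : ι → Bool, ‖(∏ i, d' i (s i)) * (r s : ℂ)‖ := norm_sum_le _ _
      _ ≤ ∑ s : ι → Bool, ‖∏ i, d' i (s i)‖ := by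
          apply Finset.sum_le_sum
          intro s _
          rw [norm_mul, Complex.norm_real, Real.norm_eq_abs, abs_of_nonneg (hr0 s)]
          exact mul_le_of_le_one_right (norm_nonneg _) (hr1 s)
      _ = 1 := habs

end Vale.Agent.P368
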