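import Mathlib

/-!
# P368: circuits, entangling depth, parity correlation (definitions used in the statement)

`ι` is the finite set of all qubits (inputs and ancillas), `I` the set of input qubits.
Basis states are functions `ι → Bool`; operators are complex matrices indexed by basis states.
-/

namespace Vale.Agent.P368

open Matrix

/-- operators on the qubits `ι`: matrices in the computational basis, `X y x = ⟨y|X|x⟩`. -/
abbrev Op (ι : Type) := Matrix (ι → Bool) (ι → Bool) ℂ

/-- one-qubit operators -/
abbrev M2 := Matrix Bool Bool ℂ

/-- tensor product of one-qubit operators: `b i` is applied to the qubit `i`. -/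
def tens {ι : Type} [Fintype ι] (b : ι → M2) : Op ι := fun y x => ∏ i, b i (y i) (x i)

/-- a generalized Toffoli gate: nonempty set of control qubits and a target outside it. -/
structure Tof (ι : Type) [DecidableEq ι] where
  ctrl : Finset ι
  tgt : ι
  nonempty : ctrl.Nonempty
  notMem : tgt ∉ ctrl

variable {ι : Type} [DecidableEq ι]

/-- qubits touched by the gate -/
def Tof.supp (g : Tof ι) : Finset ι := insert g.tgt g.ctrl

/-- action on basis states: the target is flipped if all controls are `true`. -/
def Tof.act (g : Tof ι) (x : ι → Bool) : ι → Bool :=
  if ∀ i ∈ g.ctrl, x i = true then Function.update x g.tgt (!x g.tgt) else x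

/-- matrix of the gate -/
def Tof.op [Fintype ι] (g : Tof ι) : Op ι := fun y x => if y = g.act x then 1 else 0

/-- A gate: an arbitrary one-qubit unitary `u` on the qubit `i`, or a generalized Toffoli gate. -/
inductive Gate (ι : Type) [DecidableEq ι] : Type
  | one (i : ι) (u : M2) (hu : u ∈ unitary M2) : Gate ι
  | tof (g : Tof ι) : Gate ι

/-- qubits touched by a gate -/
def Gate.supp : Gate ι → Finset ι
  | .one i _ _ => {i}
  | .tof g => g.supp

/-- matrix of a gate -/
def Gate.op [Fintype ι] : Gate ι → Op ι
  | .one i u _ => tens (Function.update (fun _ => 1) i u)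
  | .tof g => g.op

/-- is the gate a multiqubit gate? -/
def Gate.multi : Gate ι → Bool
  | .one _ _ _ => false
  | .tof _ => true

/-- matrix of a layer -/
def layerOp [Fintype ι] (l : List (Gate ι)) : Op ι := (l.map Gate.op).prod

/-- A circuit is a list of layers (the head of the list is the layer applied last); the gates of
one layer have pairwise disjoint supports. -/
def IsCircuit (C : List (List (Gate ι))) : Prop :=
  ∀ l ∈ C, l.Pairwise fun g h => Disjoint g.supp h.supp

/-- matrix of a circuit -/
def circOp [Fintype ι] (C : List (List (Gate ι))) : Op ι := (C.map layerOp).prod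

/-- entangling depth: the number of layers that contain a multiqubit gate -/
def entDepth (C : List (List (Gate ι))) : ℕ := C.countP fun l => l.any Gate.multi

/-- probability that measuring the qubit `o` of the state `U|s⟩` gives `b`. -/
noncomputable def prob [Fintype ι] (U : Op ι) (o : ι) (b : Bool) (s : ι → Bool) : ℝ :=
  ∑ y : ι → Bool, if y o = b then ‖U y s‖ ^ 2 else 0

/-- parity of a basis state -/
def par [Fintype ι] (s : ι → Bool) : Bool :=
  decide ((Finset.univ.filter fun i => s i = true).card % 2 = 1)

/-- the initial basis states: arbitrary on the input qubits `I`, `false` on the ancillas. -/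
def inputs [Fintype ι] (I : Finset ι) : Finset (ι → Bool) :=
  Finset.univ.filter fun s => ∀ i, i ∉ I → s i = false

/-- parity correlation: average over all inputs of `Pr[correct] - Pr[wrong]`. -/
noncomputable def corr [Fintype ι] (I : Finset ι) (U : Op ι) (o : ι) : ℝ :=
  (∑ s ∈ inputs I, (prob U o (par s) s - prob U o (!par s) s)) / 2 ^ I.card

end Vale.Agent.P368
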